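import Vale.Agent.P218UM.Basic

/-! Lipschitz graphs have small mass ratio; points of higher multiplicity. -/

open MeasureTheory Set Filter Topology Metric
open scoped ENNReal NNReal RealInnerProductSpace ContDiff

namespace Vale.Agent.P218UM

open Vale.Agent.P218UA

/-- a Lipschitz graph has mass ratio almost one -/
theorem mk_le_of_reg (hC : CylDensStmt) {w : E3 → ℝ} (hw : Continuous w) {θ : ℝ}
    (hθ : θ ≤ 1 / 10) {x : E3} {r : ℝ} (hr : 0 < r) (h : Reg w θ x r) :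
    mk (ar w) x r ≤ 103 / 100 := by
  obtain ⟨n, hn, h⟩ := h
  set S : Set E3 := {z | w z = 0} ∩ ball x r with hS
  have hSm : MeasurableSet S :=
    (isClosed_eq hw continuous_const).measurableSet.inter measurableSet_ball
  set π : E3 → E3 := fun z => z - ⟪z - x, n⟫ • n with hπ
  have hπc : Continuous π := by fun_prop
  have hnn : ⟪n, n⟫ = 1 := by rw [real_inner_self_eq_norm_sq, hn]; norm_num
  have hpy : ∀ a : E3, ‖a - ⟪a, n⟫ • n‖ ^ 2 = ‖a‖ ^ 2 - ⟪a, n⟫ ^ 2 := fun a => by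
    rw [norm_sub_sq_real, real_inner_smul_right, norm_smul, hn, Real.norm_eq_abs, mul_one, sq_abs]
    ring
  have hK : ∀ a ∈ S, ∀ b ∈ S, dist (id a) (id b) ≤ (101 / 100 : ℝ≥0) * dist (π a) (π b) := by
    intro a ha b hb
    have h1 := h a ha.2 b hb.2 ha.1 hb.1
    have e : π a - π b = (a - b) - ⟪a - b, n⟫ • n := by
      simp only [hπ, inner_sub_left, sub_smul]
      abel
    rw [id, id, dist_eq_norm, dist_eq_norm, e]
    have h2 := hpy (a - b)
    have h3 : |⟪a - b, n⟫| ≤ 1 / 10 * ‖a - b‖ :=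
      h1.trans (mul_le_mul_of_nonneg_right hθ (norm_nonneg _))
    have h4 : ⟪a - b, n⟫ ^ 2 ≤ (1 / 10 * ‖a - b‖) ^ 2 := by
      rw [← sq_abs]
      exact pow_le_pow_left₀ (abs_nonneg _) h3 2
    push_cast
    refine (abs_le_of_sq_le_sq' ?_ (by positivity)).2
    nlinarith [sq_nonneg ‖a - b‖]
  set P : Set E3 := {z | ⟪z, n⟫ = ⟪x, n⟫} with hP
  have hmap : ((μHE[2] : Measure E3).restrict S).map π
      ≤ ((101 / 100 : ℝ≥0) : ℝ≥0∞) ^ (2 : ℝ) • (μHE[2] : Measure E3).restrict P := by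
    refine Measure.le_iff.2 fun B hB => ?_
    rw [Measure.map_apply hπc.measurable hB, Measure.restrict_apply (hπc.measurable hB),
      Measure.smul_apply, Measure.restrict_apply hB, smul_eq_mul]
    have h1 := P218GA.img_le (f := id) (L := π) (t := π ⁻¹' B ∩ S)
      (fun a ha b hb => hK a ha.2 b hb.2) (d := ((2 : ℕ) : ℝ)) (by positivity)
    have h2 : π '' (π ⁻¹' B ∩ S) ⊆ B ∩ P := by
      rintro _ ⟨a, ha, rfl⟩
      refine ⟨ha.1, ?_⟩
      simp only [hP, hπ, mem_ofPred_eq, inner_sub_left, real_inner_smul_left, hnn]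
      ring
    rw [image_id] at h1
    simp only [Measure.euclideanHausdorffMeasure_def, Measure.smul_apply]
    have h3 := h1.trans (mul_le_mul_right (measure_mono h2) _)
    rw [ENNReal.smul_def, ENNReal.smul_def, smul_eq_mul, smul_eq_mul, mul_left_comm]
    refine mul_le_mul_right ?_ _
    simpa using h3
  have hm : Measurable fun y : E3 => ENNReal.ofReal (kk (r⁻¹ • (y - x))) :=
    (continuous_kk_scale x r).measurable.ennreal_ofReal
  have h1 : ∫⁻ y, ENNReal.ofReal (kk (r⁻¹ • (y - x))) ∂(ar w)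
      = ∫⁻ y in S, ENNReal.ofReal (kk (r⁻¹ • (y - x))) ∂(μHE[2] : Measure E3) := by
    rw [hS, inter_comm, ← Measure.restrict_restrict measurableSet_ball, ← ar,
      ← lintegral_indicator measurableSet_ball]
    refine lintegral_congr fun y => ?_
    by_cases hy : y ∈ ball x r
    · rw [indicator_of_mem hy]
    · rw [indicator_of_notMem hy, kk_scale_zero hr (by simpa [dist_eq_norm] using hy),
        ENNReal.ofReal_zero]
  have h2 : ∫⁻ y in S, ENNReal.ofReal (kk (r⁻¹ • (y - x))) ∂(μHE[2] : Measure E3)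
      ≤ ∫⁻ y in S, ENNReal.ofReal (kk (r⁻¹ • (π y - x))) ∂(μHE[2] : Measure E3) := by
    refine lintegral_mono fun y => ENNReal.ofReal_le_ofReal (kk_anti ?_)
    rw [norm_smul, norm_smul]
    refine mul_le_mul_of_nonneg_left ?_ (norm_nonneg _)
    have e : π y - x = (y - x) - ⟪y - x, n⟫ • n := by
      simp only [hπ]
      abel
    rw [e]
    refine (abs_le_of_sq_le_sq' ?_ (norm_nonneg _)).2
    rw [hpy]
    nlinarith [sq_nonneg ⟪y - x, n⟫]
  have h3 := (lintegral_map hm hπc.measurable (μ := (μHE[2] : Measure E3).restrict S)).symm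
  have h4 := lintegral_mono' hmap (le_refl fun y : E3 => ENNReal.ofReal (kk (r⁻¹ • (y - x))))
  rw [lintegral_smul_measure, smul_eq_mul] at h4
  have h5 := ((hC n hn).2.2 x r ⟪x, n⟫ hr).2
  rw [mk_eq_lintegral] at h5
  simp only [sub_self, zero_div, ne_eq, OfNat.ofNat_ne_zero, not_false_eq_true, zero_pow,
    sub_zero, zero_le_one, sup_of_le_left, one_pow] at h5
  rw [div_eq_one_iff_eq (by positivity)] at h5
  have h6 : ∫⁻ y in P, ENNReal.ofReal (kk (r⁻¹ • (y - x))) ∂(μHE[2] : Measure E3)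
      = ENNReal.ofReal (r ^ 2) := by
    rw [← h5, ENNReal.ofReal_toReal]
    intro h0
    rw [h0, ENNReal.toReal_top] at h5
    exact absurd h5 (by positivity)
  rw [mk_eq_lintegral, div_le_iff₀ (by positivity)]
  refine ENNReal.toReal_le_of_le_ofReal (by positivity) ?_
  rw [h1]
  refine (h2.trans (h3.le.trans h4)).trans ?_
  rw [h6, ENNReal.ofReal_mul (by norm_num)]
  refine mul_le_mul_left ?_ _
  rw [show (2 : ℝ) = ((2 : ℕ) : ℝ) by norm_num, ENNReal.rpow_natCast, ← ENNReal.coe_pow,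
    ← ENNReal.ofReal_coe_nnreal]
  refine ENNReal.ofReal_le_ofReal ?_
  push_cast
  norm_num

lemma isTest_kk {c : ℝ} (hc : 1 ≤ c) (hc' : c ≤ 10) :
    IsTest 10 fun z : E3 => 8⁻¹ * kk (c⁻¹ • (z - 0)) where
  smooth := contDiff_const.mul ((contDiff_kk.of_le (by norm_num)).comp (by fun_prop))
  supp x hx := by rw [kk_scale_zero (by linarith) (by simpa using hc'.trans hx), mul_zero]
  le_one x := by
    rw [abs_of_nonneg (mul_nonneg (by norm_num) (kk_nonneg _))]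
    linarith [kk_le (c⁻¹ • (x - 0)), four_div_pi_le]
  deriv_le x := by
    refine norm_fderiv_le_of_lip' ℝ zero_le_one (Eventually.of_forall fun y => ?_)
    rw [← mul_sub, norm_mul, Real.norm_eq_abs, Real.norm_eq_abs]
    have h1 := abs_kk_sub_le (c⁻¹ • (y - 0)) (c⁻¹ • (x - 0))
    rw [← smul_sub, sub_sub_sub_cancel_right, norm_smul, norm_inv, Real.norm_eq_abs,
      abs_of_pos (by linarith : 0 < c)] at h1
    have h2 : c⁻¹ ≤ 1 := inv_le_one_of_one_le₀ hc
    have h3 := norm_nonneg (y - x)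
    rw [abs_of_pos (by norm_num : (0 : ℝ) < 8⁻¹)]
    nlinarith

/-- the mass ratios at the scales `c r`, `1 ≤ c ≤ 10`, of a measure close to parallel planes -/
lemma NearPl.mk_near (hC : CylDensStmt) {μ : Measure E3} {z : E3} {r δ : ℝ} (hr : 0 < r)
    (h : NearPl μ z r 10 δ) : ∃ (k : ℕ) (a : Fin k → ℝ), ∀ c, 1 ≤ c → c ≤ 10 →
      |mk μ z (c * r) - ∑ i, max (1 - (a i / c) ^ 2) 0 ^ 4| ≤ 8 * δ := by
  obtain ⟨n, k, a, hn, h⟩ := h
  refine ⟨k, a, fun c hc hc' => ?_⟩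
  have hc0 : 0 < c := by linarith
  have h1 := h _ (isTest_kk hc hc')
  rw [integral_const_mul, integral_const_mul,
    integral_pl hn a (continuous_kk_scale 0 c) (hasCompactSupport_kk 0 hc0)] at h1
  have h2 : ∀ i, ∫ y, kk (c⁻¹ • (y - 0)) ∂((μHE[2] : Measure E3).restrict {z | ⟪z, n⟫ = a i})
      = c ^ 2 * max (1 - (a i / c) ^ 2) 0 ^ 4 := fun i => by
    have h3 := ((hC n hn).2.2 0 c (a i) hc0).2
    rw [P218UA.mk, div_eq_iff (by positivity), inner_zero_left, zero_sub, neg_div, neg_sq] at h3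
    rw [h3, mul_comm]
  have h3 : ∫ y, kk (c⁻¹ • (r⁻¹ • (y - z) - 0)) ∂μ = mk μ z (c * r) * (c * r) ^ 2 := by
    rw [P218UA.mk, div_mul_cancel₀ _ (by positivity)]
    simp only [sub_zero, smul_smul, mul_inv]
  simp only [h2] at h1
  rw [h3, ← Finset.mul_sum] at h1
  have e : 8⁻¹ * (mk μ z (c * r) * (c * r) ^ 2) / r ^ 2
      - 8⁻¹ * (c ^ 2 * ∑ i, max (1 - (a i / c) ^ 2) 0 ^ 4)
      = 8⁻¹ * c ^ 2 * (mk μ z (c * r) - ∑ i, max (1 - (a i / c) ^ 2) 0 ^ 4) := by
    field_simp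
  rw [e, abs_mul, abs_of_pos (by positivity)] at h1
  have h4 : 1 ≤ c ^ 2 := one_le_pow₀ hc
  nlinarith [abs_nonneg (mk μ z (c * r) - ∑ i, max (1 - (a i / c) ^ 2) 0 ^ 4)]

lemma two_of_one_lt {k : ℕ} {a : Fin k → ℝ} (h : 1 < ∑ i, max (1 - a i ^ 2) 0 ^ 4) :
    ∃ i j, i ≠ j ∧ |a i| < 1 ∧ |a j| < 1 := by
  by_contra hne
  push Not at hne
  have h1 : ∀ i, 1 ≤ |a i| → max (1 - a i ^ 2) 0 ^ 4 = 0 := fun i hi => by
    rw [max_eq_right (by nlinarith [sq_abs (a i)])]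
    simp
  by_cases h2 : ∃ i, |a i| < 1
  · obtain ⟨i, hi⟩ := h2
    rw [Finset.sum_eq_single i (fun j _ hj => h1 j (hne i j (Ne.symm hj) hi)) (by simp)] at h
    have h3 : max (1 - a i ^ 2) 0 ≤ 1 := max_le (by nlinarith [sq_nonneg (a i)]) zero_le_one
    linarith [pow_le_one₀ (n := 4) (le_max_right (1 - a i ^ 2) 0) h3]
  · push Not at h2
    rw [Finset.sum_eq_zero fun i _ => h1 i (h2 i)] at h
    linarith

/-- two planes are seen at the next scale -/
lemma NearPl.mk_step (hC : CylDensStmt) {μ : Measure E3} {z : E3} {r : ℝ} (hr : 0 < r)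
    (h : NearPl μ z r 10 (1 / 400)) (h1 : 11 / 10 ≤ mk μ z r) : 19 / 10 ≤ mk μ z (10 * r) := by
  obtain ⟨k, a, h⟩ := NearPl.mk_near hC hr h
  have h2 := abs_le.1 (h 1 le_rfl (by norm_num))
  have h3 := abs_le.1 (h 10 (by norm_num) le_rfl)
  simp only [one_mul, div_one] at h2
  obtain ⟨i, j, hij, hi, hj⟩ := two_of_one_lt (a := a) (by linarith)
  have h4 : ∀ i, |a i| < 1 → (99 / 100 : ℝ) ^ 4 ≤ max (1 - (a i / 10) ^ 2) 0 ^ 4 := fun i hi => by
    refine pow_le_pow_left₀ (by norm_num) (le_max_of_le_left ?_) 4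
    have : a i ^ 2 ≤ 1 := by
      rw [← sq_abs]
      exact pow_le_one₀ (abs_nonneg _) hi.le
    nlinarith
  have h5 : max (1 - (a i / 10) ^ 2) 0 ^ 4 + max (1 - (a j / 10) ^ 2) 0 ^ 4
      ≤ ∑ i, max (1 - (a i / 10) ^ 2) 0 ^ 4 := by
    rw [← Finset.sum_pair (f := fun i => max (1 - (a i / 10) ^ 2) 0 ^ 4) hij]
    exact Finset.sum_le_sum_of_subset_of_nonneg (Finset.subset_univ _) fun _ _ _ => by positivity
  have h6 := h4 i hi
  have h7 := h4 j hj
  norm_num at h6 h7 h3 h5 ⊢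
  linarith

/-- at the points of higher multiplicity the mass ratio is almost two at all small scales,
locally uniformly -/
theorem Flat.zset (hC : CylDensStmt) {ν : Measure E3} (h : Flat ν) (R : ℝ) :
    ∃ r₀ > 0, ∀ z : E3, ‖z‖ ≤ R → (∃ᶠ r in 𝓝[>] (0 : ℝ), ∀ s, 0 < s → s ≤ r → 11 / 10 ≤ mk ν z s) →
      ∀ r, 0 < r → r < r₀ → 19 / 10 ≤ mk ν z r := by
  obtain ⟨r₀, hr₀, h⟩ := h R 10 (1 / 400) (by norm_num)
  refine ⟨r₀, hr₀, fun z hz hZ r hr hrr => ?_⟩
  obtain ⟨r₁, hr₁, hr₁'⟩ := (hZ.and_eventually self_mem_nhdsWithin).exists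
  have key : ∀ k : ℕ, ∀ r, 0 < r → r < r₀ → r ≤ 10 ^ (k + 1) * r₁ → 19 / 10 ≤ mk ν z r := by
    intro k
    induction k with
    | zero =>
      intro r hr hrr hk
      have := NearPl.mk_step hC (r := r / 10) (by positivity)
        (h z hz _ (by positivity) (by linarith)) (hr₁ _ (by positivity) (by norm_num at hk; linarith))
      rwa [mul_div_cancel₀ _ (by norm_num)] at this
    | succ k ih =>
      intro r hr hrr hk
      have h1 := ih (r / 10) (by positivity) (by linarith) (by rw [pow_succ] at hk; linarith)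
      have := NearPl.mk_step hC (r := r / 10) (by positivity)
        (h z hz _ (by positivity) (by linarith)) (by linarith)
      rwa [mul_div_cancel₀ _ (by norm_num)] at this
  obtain ⟨k, hk⟩ := pow_unbounded_of_one_lt (r / r₁) (by norm_num : (1 : ℝ) < 10)
  refine key k r hr hrr ?_
  have h2 : (0 : ℝ) < r₁ := hr₁'
  rw [div_lt_iff₀ h2] at hk
  have h3 : (10 : ℝ) ^ k ≤ 10 ^ (k + 1) := pow_le_pow_right₀ (by norm_num) (Nat.le_succ k)
  nlinarith

theorem Flat.mk_ge (hC : CylDensStmt) {ν : Measure E3} (h : Flat ν) (R : ℝ) :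
    ∃ r₀ > 0, ∀ z ∈ Zset ν, ‖z‖ ≤ R → ∀ r, 0 < r → r < r₀ → 19 / 10 ≤ mk ν z r := by
  obtain ⟨r₀, hr₀, h⟩ := Flat.zset hC h R
  refine ⟨r₀, hr₀, fun z hz hzR => h z hzR (Eventually.frequently ?_)⟩
  obtain ⟨u, hu, h1⟩ := (nhdsGT_basis (0 : ℝ)).eventually_iff.1 hz
  filter_upwards [Ioo_mem_nhdsGT hu] with r hr s hs hsr
  linarith [h1 (show s ∈ Ioo 0 u from ⟨hs, hsr.trans_lt hr.2⟩)]

/-- the set of points of higher multiplicity is closed -/
theorem Flat.isClosed_zset (hC : CylDensStmt) {ν : Measure E3} {A : ℝ} (hA : 0 ≤ A)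
    (hν : AR ν A) (h : Flat ν) : IsClosed (Zset ν) := by
  refine isClosed_of_closure_subset fun z hz => ?_
  obtain ⟨r₀, hr₀, h1⟩ := Flat.mk_ge hC h (‖z‖ + 1)
  filter_upwards [Ioo_mem_nhdsGT hr₀] with r hr
  obtain ⟨z', hz', hd⟩ := Metric.mem_closure_iff.1 hz (min 1 (r / (100 * A + 1)))
    (lt_min one_pos (div_pos hr.1 (by positivity)))
  rw [dist_eq_norm, lt_min_iff, lt_div_iff₀ (by positivity)] at hd
  have h2 : ‖z'‖ ≤ ‖z‖ + 1 := by
    have := norm_sub_le z (z - z')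
    rw [sub_sub_cancel] at this
    linarith [hd.1]
  have h3 := h1 z' hz' h2 r hr.1 hr.2
  have h0 := norm_nonneg (z - z')
  have h4 := abs_le.1 (abs_mk_sub_le hν hA hr.1 (x := z) (x' := z') (by nlinarith [hd.2]))
  have h5 : 32 * A * (‖z - z'‖ / r) ≤ 32 / 100 := by
    rw [← mul_div_assoc, div_le_iff₀ hr.1]
    nlinarith [hd.2]
  linarith [h4.1]

end Vale.Agent.P218UM
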