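import Vale.Agent.P218UM.Phi
import Vale.Agent.P218UM.RegMass

/-! The interface between the weighted estimate and the selection argument. -/

open MeasureTheory Set Filter Topology Metric
open scoped ENNReal NNReal RealInnerProductSpace ContDiff

namespace Vale.Agent.P218UM

open Vale.Agent.P218UA

/-- the points of the ball of radius `R √(-t)` which are bad at the scale `e^(a₀ - 1) √(-t)` -/
def NN (O : Set (ℝ × E3 × ℝ)) (R a₀ t : ℝ) : Set E3 :=
  {x | ‖x‖ ≤ R * √(-t) ∧ (t, x, lev a₀ t - 1) ∈ O}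

/-- the weighted estimate: on average in logarithmic time the bad points have small mass -/
def M1a : Prop :=
  ∀ w a A C, a ≤ -20 → IsGood w (Ioo a 0) A C → ∃ (θ : ℝ) (O : Set (ℝ × E3 × ℝ)), θ ≤ 1 / 10 ∧
    IsOpen O ∧ (∀ t ∈ Ioo a 0, ∀ x y, ¬Reg (w t) θ x (Real.exp y) → (t, x, y) ∈ O) ∧
    ∀ R ε b : ℝ, 0 < ε → ∃ a₀ ≤ b, ∀ᶠ t₀ in 𝓝[<] (0 : ℝ), ∃ K : ℝ, ∀ m : ℕ,
      ∫⁻ t in Ioo (t₀ / 2) (t₀ / 2 ^ m), ar (w t) (NN O R a₀ t) * ENNReal.ofReal (1 / t ^ 2)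
        ≤ ENNReal.ofReal (K + ε * m)

lemma measurable_lev (a₀ : ℝ) : Measurable (lev a₀) := by
  unfold lev
  fun_prop

lemma measurableSet_NN {O : Set (ℝ × E3 × ℝ)} (hO : IsOpen O) (R a₀ : ℝ) :
    MeasurableSet {p : ℝ × E3 | p.2 ∈ NN O R a₀ p.1} := by
  have h1 : Measurable fun p : ℝ × E3 => (p.1, p.2, lev a₀ p.1 - 1) :=
    measurable_fst.prodMk (measurable_snd.prodMk
      (((measurable_lev a₀).comp measurable_fst).sub_const 1))
  have h2 : MeasurableSet {p : ℝ × E3 | ‖p.2‖ ≤ R * √(-p.1)} :=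
    measurableSet_le (by fun_prop) (by fun_prop)
  exact h2.inter (h1 hO.measurableSet)

end Vale.Agent.P218UM
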