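import Vale.Agent.P218UM.Main
import Vale.Agent.P218UZ.M1b

/-! Some tangent flow has multiplicity one almost everywhere. -/

namespace Vale.Agent.P218UM

open Vale.Agent.P218UA

theorem m1 (hC : Calc) (hM : Mono) (hT : Tan) (hO : CoreStmt) (hW : P218UD.WeightStmtR)
    (hc : Cell) (hF : FlatStmt) (hD : CylDensStmt) : M1Stmt :=
  P218UZ.m1b hC hT hF hD (m1a hC hM hT hO hW hc)

end Vale.Agent.P218UM
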