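import Vale.Agent.P218UM.Basic

/-! Calculus rules for the tangential trace of the Hessian and for the operators `heat`, `adj`. -/

open MeasureTheory Set Filter Topology Metric
open scoped ENNReal NNReal RealInnerProductSpace ContDiff

namespace Vale.Agent.P218UM

open Vale.Agent.P218UA
open Vale.Agent.P218.H63 (lap hessSq)

/-- the standard basis -/
noncomputable abbrev bs (i : Fin 3) : E3 := EuclideanSpace.basisFun (Fin 3) ℝ i

lemma inner_gradient (f : E3 → ℝ) (x v : E3) : ⟪gradient f x, v⟫ = fderiv ℝ f x v := by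
  simp [gradient]

lemma norm_gradient (f : E3 → ℝ) (x : E3) : ‖gradient f x‖ = ‖fderiv ℝ f x‖ := by
  simp [gradient]

lemma inner_hs {f : E3 → ℝ} {x : E3} (hf : ContDiffAt ℝ 2 f x) (a b : E3) :
    ⟪hs f x a, b⟫ = fderiv ℝ (fderiv ℝ f) x a b := by
  have h1 : DifferentiableAt ℝ (fderiv ℝ f) x :=
    (hf.fderiv_right (m := 1) (by norm_num)).differentiableAt (by norm_num)
  let L : (E3 →L[ℝ] ℝ) →L[ℝ] E3 :=
    { toFun := fun φ => (InnerProductSpace.toDual ℝ E3).symm φ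
      map_add' := fun _ _ => map_add _ _ _
      map_smul' := fun c φ => by simp
      cont := (InnerProductSpace.toDual ℝ E3).symm.continuous }
  have h2 : HasFDerivAt (gradient f) (L.comp (fderiv ℝ (fderiv ℝ f) x)) x :=
    L.hasFDerivAt.comp x h1.hasFDerivAt
  rw [hs, h2.fderiv]
  simp [L]

lemma trace_eq (B : E3 →L[ℝ] E3) :
    LinearMap.trace ℝ E3 B.toLinearMap = ∑ i, ⟪B (bs i), bs i⟫ := by
  rw [LinearMap.trace_eq_sum_inner _ (EuclideanSpace.basisFun (Fin 3) ℝ)]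
  exact Finset.sum_congr rfl fun i _ => real_inner_comm _ _

lemma trT_hs {f : E3 → ℝ} {x : E3} (hf : ContDiffAt ℝ 2 f x) (n : E3) :
    trT n (hs f x) = ∑ i, fderiv ℝ (fderiv ℝ f) x (bs i) (bs i) - fderiv ℝ (fderiv ℝ f) x n n := by
  rw [trT, trace_eq, inner_hs hf]
  simp only [inner_hs hf]

lemma sum_fderiv_mul (f g : E3 → ℝ) (x : E3) :
    ∑ i, fderiv ℝ f x (bs i) * fderiv ℝ g x (bs i) = ⟪gradient f x, gradient g x⟫ := by
  simp only [← inner_gradient]
  rw [← (EuclideanSpace.basisFun (Fin 3) ℝ).sum_inner_mul_inner]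
  exact Finset.sum_congr rfl fun i _ => by rw [real_inner_comm (gradient g x)]

section second

variable {X : Type*} [NormedAddCommGroup X] [NormedSpace ℝ X]

lemma ev_diff {f : X → ℝ} {x : X} (hf : ContDiffAt ℝ 2 f x) :
    ∀ᶠ y in 𝓝 x, DifferentiableAt ℝ f y :=
  (hf.eventually (by simp)).mono fun _ h => h.differentiableAt (by norm_num)

lemma diff_fderiv {f : X → ℝ} {x : X} (hf : ContDiffAt ℝ 2 f x) :
    DifferentiableAt ℝ (fderiv ℝ f) x :=
  (hf.fderiv_right (m := 1) (by norm_num)).differentiableAt (by norm_num)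

lemma d2_mul {f g : X → ℝ} {x : X} (hf : ContDiffAt ℝ 2 f x) (hg : ContDiffAt ℝ 2 g x) (a b : X) :
    fderiv ℝ (fderiv ℝ fun y => f y * g y) x a b = f x * fderiv ℝ (fderiv ℝ g) x a b
      + g x * fderiv ℝ (fderiv ℝ f) x a b + fderiv ℝ f x a * fderiv ℝ g x b
      + fderiv ℝ g x a * fderiv ℝ f x b := by
  have h1 : (fderiv ℝ fun y => f y * g y) =ᶠ[𝓝 x]
      fun y => f y • fderiv ℝ g y + g y • fderiv ℝ f y := by
    filter_upwards [ev_diff hf, ev_diff hg] with y h1 h2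
    exact fderiv_fun_mul h1 h2
  have hf1 := (hf.differentiableAt (by norm_num)).hasFDerivAt
  have hg1 := (hg.differentiableAt (by norm_num)).hasFDerivAt
  have h2 := (hf1.smul (diff_fderiv hg).hasFDerivAt).add (hg1.smul (diff_fderiv hf).hasFDerivAt)
  rw [h1.fderiv_eq]
  erw [h2.fderiv]
  simp
  ring

lemma d2_comp {F : ℝ → ℝ} {u : X → ℝ} {x : X} (hF : ContDiffAt ℝ 2 F (u x))
    (hu : ContDiffAt ℝ 2 u x) (a b : X) :
    fderiv ℝ (fderiv ℝ fun y => F (u y)) x a b = deriv F (u x) * fderiv ℝ (fderiv ℝ u) x a b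
      + deriv (deriv F) (u x) * (fderiv ℝ u x a * fderiv ℝ u x b) := by
  have h1 : (fderiv ℝ fun y => F (u y)) =ᶠ[𝓝 x] fun y => deriv F (u y) • fderiv ℝ u y := by
    filter_upwards [ev_diff hu, hu.continuousAt.eventually (ev_diff hF)] with y h1 h2
    exact (h2.hasDerivAt.comp_hasFDerivAt y h1.hasFDerivAt).fderiv
  have hu1 := (hu.differentiableAt (by norm_num)).hasFDerivAt
  have hF2 : DifferentiableAt ℝ (deriv F) (u x) := by
    have := (diff_fderiv hF).clm_apply (differentiableAt_const (1 : ℝ))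
    simpa using this
  have h2 := (hF2.hasDerivAt.comp_hasFDerivAt x hu1).smul (diff_fderiv hu).hasFDerivAt
  rw [h1.fderiv_eq]
  erw [h2.fderiv]
  simp
  ring

end second

lemma trT_mul {f g : E3 → ℝ} {x : E3} (hf : ContDiffAt ℝ 2 f x) (hg : ContDiffAt ℝ 2 g x)
    (n : E3) : trT n (hs (fun y => f y * g y) x) = f x * trT n (hs g x) + g x * trT n (hs f x)
      + 2 * (⟪gradient f x, gradient g x⟫ - ⟪gradient f x, n⟫ * ⟪gradient g x, n⟫) := by
  rw [trT_hs (hf.mul hg), trT_hs hf, trT_hs hg, ← sum_fderiv_mul]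
  simp only [d2_mul hf hg, inner_gradient, Fin.sum_univ_three]
  ring

lemma trT_comp {F : ℝ → ℝ} {u : E3 → ℝ} {x : E3} (hF : ContDiffAt ℝ 2 F (u x))
    (hu : ContDiffAt ℝ 2 u x) (n : E3) :
    trT n (hs (fun y => F (u y)) x) = deriv F (u x) * trT n (hs u x)
      + deriv (deriv F) (u x) * (‖gradient u x‖ ^ 2 - ⟪gradient u x, n⟫ ^ 2) := by
  rw [trT_hs (f := fun y => F (u y)) (hF.comp x hu), trT_hs hu, ← real_inner_self_eq_norm_sq, ← sum_fderiv_mul]
  simp only [d2_comp hF hu, inner_gradient, Fin.sum_univ_three]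
  ring

lemma gradient_mul {f g : E3 → ℝ} {x : E3} (hf : DifferentiableAt ℝ f x)
    (hg : DifferentiableAt ℝ g x) :
    gradient (fun y => f y * g y) x = f x • gradient g x + g x • gradient f x := by
  simp only [gradient, fderiv_fun_mul hf hg, map_add, map_smul]

lemma gradient_comp {F : ℝ → ℝ} {u : E3 → ℝ} {x : E3} (hF : DifferentiableAt ℝ F (u x))
    (hu : DifferentiableAt ℝ u x) :
    gradient (fun y => F (u y)) x = deriv F (u x) • gradient u x := by
  have h := (hF.hasDerivAt.comp_hasFDerivAt x hu.hasFDerivAt).fderiv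
  simp only [gradient]
  erw [h]
  simp only [map_smul]

lemma gradient_const_mul (c : ℝ) {f : E3 → ℝ} {x : E3} (hf : DifferentiableAt ℝ f x) :
    gradient (fun y => c * f y) x = c • gradient f x := by
  rw [gradient_mul (differentiableAt_const c) hf]
  simp

lemma trT_const_mul (c : ℝ) {f : E3 → ℝ} {x : E3} (hf : ContDiffAt ℝ 2 f x) (n : E3) :
    trT n (hs (fun y => c * f y) x) = c * trT n (hs f x) := by
  rw [trT_mul contDiffAt_const hf, trT_hs contDiffAt_const]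
  simp

lemma gradient_norm_sq (x : E3) : gradient (fun y : E3 => ‖y‖ ^ 2) x = (2 : ℝ) • x := by
  refine ext_inner_right ℝ fun v => ?_
  rw [inner_gradient, (hasStrictFDerivAt_norm_sq x).hasFDerivAt.fderiv, real_inner_smul_left]
  simp

lemma trT_norm_sq {n : E3} (hn : ‖n‖ = 1) (x : E3) :
    trT n (hs (fun y : E3 => ‖y‖ ^ 2) x) = 4 := by
  have h1 : gradient (fun y : E3 => ‖y‖ ^ 2) = fun x => (2 : ℝ) • x := funext gradient_norm_sq
  have h2 : hs (fun y : E3 => ‖y‖ ^ 2) x = (2 : ℝ) • ContinuousLinearMap.id ℝ E3 := by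
    rw [hs, h1]
    exact ((hasFDerivAt_id x).const_smul (2 : ℝ)).fderiv
  rw [trT, trace_eq, h2]
  simp only [smul_apply, ContinuousLinearMap.id_apply, real_inner_smul_left,
    real_inner_self_eq_norm_sq, hn, OrthonormalBasis.norm_eq_one, Fin.sum_univ_three]
  norm_num

lemma abs_tan_inner_le {n : E3} (hn : ‖n‖ = 1) (a b : E3) :
    |⟪a, b⟫ - ⟪a, n⟫ * ⟪b, n⟫| ≤ 2 * (‖a‖ * ‖b‖) := by
  have h1 := abs_real_inner_le_norm a b
  have h2 := abs_real_inner_le_norm a n
  have h3 := abs_real_inner_le_norm b n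
  rw [hn, mul_one] at h2 h3
  have h4 : |⟪a, n⟫ * ⟪b, n⟫| ≤ ‖a‖ * ‖b‖ := by
    rw [abs_mul]
    exact mul_le_mul h2 h3 (abs_nonneg _) (norm_nonneg _)
  have h5 := abs_sub ⟪a, b⟫ (⟪a, n⟫ * ⟪b, n⟫)
  linarith

lemma inner_sq_le {n : E3} (hn : ‖n‖ = 1) (a : E3) : ⟪a, n⟫ ^ 2 ≤ ‖a‖ ^ 2 := by
  have h2 := abs_real_inner_le_norm a n
  rw [hn, mul_one] at h2
  rw [← sq_abs]
  exact pow_le_pow_left₀ (abs_nonneg _) h2 2

/-- slices of a function of class `C²` on space-time -/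
lemma slice_x {f : ℝ → E3 → ℝ} {t : ℝ} {x : E3} {n : WithTop ℕ∞}
    (hf : ContDiffAt ℝ n (fun p : ℝ × E3 => f p.1 p.2) (t, x)) : ContDiffAt ℝ n (f t) x :=
  hf.comp x (contDiffAt_const.prodMk contDiffAt_id)

lemma slice_t {f : ℝ → E3 → ℝ} {t : ℝ} {x : E3} {n : WithTop ℕ∞}
    (hf : ContDiffAt ℝ n (fun p : ℝ × E3 => f p.1 p.2) (t, x)) :
    ContDiffAt ℝ n (fun s => f s x) t :=
  hf.comp t (contDiffAt_id.prodMk contDiffAt_const)

lemma heat_mul (w : ℝ → E3 → ℝ) {f g : ℝ → E3 → ℝ} {t : ℝ} {x : E3}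
    (hf : ContDiffAt ℝ 2 (f t) x) (hg : ContDiffAt ℝ 2 (g t) x)
    (hf' : DifferentiableAt ℝ (fun s => f s x) t) (hg' : DifferentiableAt ℝ (fun s => g s x) t) :
    heat w (fun s y => f s y * g s y) t x = f t x * heat w g t x + g t x * heat w f t x
      - 2 * (⟪gradient (f t) x, gradient (g t) x⟫
        - ⟪gradient (f t) x, gradient (w t) x⟫ * ⟪gradient (g t) x, gradient (w t) x⟫) := by
  simp only [heat]
  rw [trT_mul hf hg, deriv_fun_mul hf' hg']
  ring

lemma adj_congr (w : ℝ → E3 → ℝ) {f g : ℝ → E3 → ℝ} {t : ℝ} {x : E3}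
    (h : (fun p : ℝ × E3 => f p.1 p.2) =ᶠ[𝓝 (t, x)] fun p => g p.1 p.2) :
    adj w f t x = adj w g t x := by
  have h1 : f t =ᶠ[𝓝 x] g t :=
    (continuous_const.prodMk continuous_id).continuousAt.eventually h
  have h2 : (fun s => f s x) =ᶠ[𝓝 t] fun s => g s x :=
    (continuous_id.prodMk continuous_const).continuousAt.eventually h
  have h3 : gradient (f t) =ᶠ[𝓝 x] gradient (g t) := h1.gradient
  simp only [adj, hs]
  rw [h2.deriv_eq, h3.fderiv_eq, h3.eq_of_nhds, h1.eq_of_nhds]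

section param

variable {Y : Type*} [NormedAddCommGroup Y] [NormedSpace ℝ Y]

lemma contDiffAt_fderiv_param {f : Y → E3 → ℝ} {y : Y} {x : E3} {m n : WithTop ℕ∞}
    (hf : ContDiffAt ℝ n (fun p : Y × E3 => f p.1 p.2) (y, x)) (hmn : m + 1 ≤ n) :
    ContDiffAt ℝ m (fun p : Y × E3 => fderiv ℝ (f p.1) p.2) (y, x) := by
  refine ContDiffAt.fderiv (f := fun (p : Y × E3) (z : E3) => f p.1 z) (g := fun p => p.2) ?_
    contDiffAt_snd hmn
  exact hf.comp ((y, x), x) (contDiffAt_fst.fst.prodMk contDiffAt_snd)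

lemma continuousAt_trT_param {f : Y → E3 → ℝ} {y : Y} {x : E3}
    (hf : ContDiffAt ℝ 2 (fun p : Y × E3 => f p.1 p.2) (y, x)) (n : E3) :
    ContinuousAt (fun a => trT n (hs (f a) x)) y := by
  have h1 := contDiffAt_fderiv_param (m := 1) hf (by norm_num)
  have h2 : ContDiffAt ℝ 0 (fun p : Y × E3 => fderiv ℝ (fderiv ℝ (f p.1)) p.2) (y, x) := by
    refine ContDiffAt.fderiv (n := 1) (f := fun (p : Y × E3) (z : E3) => fderiv ℝ (f p.1) z)
      (g := fun p => p.2) ?_ contDiffAt_snd (by norm_num)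
    exact h1.comp ((y, x), x) (contDiffAt_fst.fst.prodMk contDiffAt_snd)
  have h3 : ContinuousAt (fun a => fderiv ℝ (fderiv ℝ (f a)) x) y :=
    h2.continuousAt.comp_of_eq (f := fun a : Y => (a, x)) (by fun_prop) rfl
  have h4 : ∀ᶠ a in 𝓝 y, ContDiffAt ℝ 2 (f a) x := by
    have h5 : ContinuousAt (fun a : Y => (a, x)) y := by fun_prop
    filter_upwards [h5.eventually (hf.eventually (by simp))] with a ha
    exact ha.comp x (contDiffAt_const.prodMk contDiffAt_id)
  refine ContinuousAt.congr (f := fun a => ∑ i, fderiv ℝ (fderiv ℝ (f a)) x (bs i) (bs i)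
    - fderiv ℝ (fderiv ℝ (f a)) x n n) ?_ (h4.mono fun a ha => (trT_hs ha n).symm)
  simp only [Fin.sum_univ_three]
  fun_prop

lemma continuousAt_gradient_param {f : Y → E3 → ℝ} {y : Y} {x : E3}
    (hf : ContDiffAt ℝ 1 (fun p : Y × E3 => f p.1 p.2) (y, x)) :
    ContinuousAt (fun a => gradient (f a) x) y := by
  have h1 := (contDiffAt_fderiv_param (m := 0) hf (by norm_num)).continuousAt
  have h3 : ContinuousAt (fun a => fderiv ℝ (f a) x) y :=
    h1.comp_of_eq (f := fun a : Y => (a, x)) (by fun_prop) rfl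
  exact (InnerProductSpace.toDual ℝ E3).symm.continuous.continuousAt.comp h3

lemma continuousAt_deriv_param {f : Y → ℝ → ℝ} {y : Y} {t : ℝ}
    (hf : ContDiffAt ℝ 1 (fun p : Y × ℝ => f p.1 p.2) (y, t)) :
    ContinuousAt (fun a => deriv (f a) t) y := by
  have h2 : ContDiffAt ℝ 0 (fun a : Y => fderiv ℝ (f a) t) y :=
    ContDiffAt.fderiv (n := 1) (f := f) (g := fun _ => t) hf contDiffAt_const (by norm_num)
  have h3 : ContinuousAt (fun a : Y => fderiv ℝ (f a) t 1) y :=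
    h2.continuousAt.clm_apply continuousAt_const
  simpa using h3

end param

end Vale.Agent.P218UM
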