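import Vale.Agent.P218UM.Phi

/-! Pointwise estimates for the weight of the global separation functional. -/

open MeasureTheory Set Filter Topology Metric
open scoped ENNReal NNReal RealInnerProductSpace ContDiff

namespace Vale.Agent.P218UM

open Vale.Agent.P218UA
open Vale.Agent.P218.H63 (lap hessSq)

/-- the weight -/
noncomputable def gam (γ : ℝ → E3 → ℝ → ℝ) (a₀ : ℝ) (t : ℝ) (x : E3) (y : ℝ) : ℝ :=
  γ t x y * (s0 (y - lev a₀ t) * ek t x)

variable {γ : ℝ → E3 → ℝ → ℝ} {a₀ t : ℝ} {x : E3}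

lemma cd_tx {y : ℝ} (h : ContDiffAt ℝ 2 (fun p : ℝ × E3 × ℝ => γ p.1 p.2.1 p.2.2) (t, x, y)) :
    ContDiffAt ℝ 2 (fun p : ℝ × E3 => γ p.1 p.2 y) (t, x) :=
  h.comp (t, x) (contDiffAt_fst.prodMk (contDiffAt_snd.prodMk contDiffAt_const))

lemma cd_y {y : ℝ} (h : ContDiffAt ℝ 2 (fun p : ℝ × E3 × ℝ => γ p.1 p.2.1 p.2.2) (t, x, y)) :
    ContDiffAt ℝ 2 (γ t x) y :=
  ContDiffAt.comp (f := fun y : ℝ => (t, x, y)) y h (by fun_prop)

lemma gam_nonneg {y : ℝ} (h0 : 0 ≤ γ t x y) : 0 ≤ gam γ a₀ t x y :=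
  mul_nonneg h0 (mul_nonneg (s0_nonneg _) (ek_nonneg _ _))

lemma gam_le_one (ht : -1 / 4 ≤ t) {y : ℝ} (h1 : γ t x y ≤ 1) : gam γ a₀ t x y ≤ 1 :=
  mul_le_one₀ h1 (mul_nonneg (s0_nonneg _) (ek_nonneg _ _))
    (mul_le_one₀ (s0_le_one _) (ek_nonneg _ _) (ek_le_one ht x))

lemma gam_eq_zero {y : ℝ} (h : lev a₀ t ≤ y) : gam γ a₀ t x y = 0 := by
  rw [gam, s0_eq_zero (by linarith)]
  simp

lemma contDiffAt_gam (ht : t < 0) {y : ℝ}
    (h : ContDiffAt ℝ 2 (fun p : ℝ × E3 × ℝ => γ p.1 p.2.1 p.2.2) (t, x, y)) :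
    ContDiffAt ℝ 2 (fun p : ℝ × E3 × ℝ => gam γ a₀ p.1 p.2.1 p.2.2) (t, x, y) := by
  have h1 : ContDiffAt ℝ 2 (fun p : ℝ × E3 × ℝ => lev a₀ p.1) (t, x, y) :=
    ContDiffAt.comp (g := lev a₀) (t, x, y) (contDiffAt_lev a₀ ht) contDiffAt_fst
  have h2 : ContDiffAt ℝ 2 (fun p : ℝ × E3 × ℝ => ek p.1 p.2.1) (t, x, y) :=
    ContDiffAt.comp (g := fun p : ℝ × E3 => ek p.1 p.2) (f := fun p : ℝ × E3 × ℝ => (p.1, p.2.1))
      (t, x, y) contDiff_ek.contDiffAt (by fun_prop)
  have h3 : ContDiffAt ℝ 2 (fun p : ℝ × E3 × ℝ => s0 (p.2.2 - lev a₀ p.1)) (t, x, y) :=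
    ContDiffAt.comp (g := s0) (t, x, y) contDiff_s0.contDiffAt (contDiffAt_snd.snd.sub h1)
  unfold gam
  exact h.mul (h3.mul h2)

lemma ek_slice (t : ℝ) (x : E3) : ContDiffAt ℝ 2 (ek t) x := slice_x contDiff_ek.contDiffAt

lemma gradient_gam_le (ht : -1 / 4 ≤ t) {y E : ℝ}
    (h : ContDiffAt ℝ 2 (fun p : ℝ × E3 × ℝ => γ p.1 p.2.1 p.2.2) (t, x, y))
    (h0 : 0 ≤ γ t x y) (h1 : γ t x y ≤ 1) (hE : 0 ≤ E)
    (hg : y ≤ lev a₀ t → ‖gradient (fun z => γ t z y) x‖ ^ 2 ≤ γ t x y * E) :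
    ‖gradient (fun z => gam γ a₀ t z y) x‖ ^ 2 ≤ gam γ a₀ t x y * (2 * E + 36) := by
  have hx := (slice_x (f := fun s z => γ s z y) (cd_tx h)).differentiableAt (by norm_num)
  have he := (ek_slice t x).differentiableAt (by norm_num)
  simp only [gam]
  rw [gradient_mul hx (he.const_mul _), gradient_const_mul _ he]
  rcases le_total y (lev a₀ t) with hy | hy
  · have h2 := hg hy
    have h3 := norm_gradient_ek_sq ht x
    have s1 := s0_nonneg (y - lev a₀ t)
    have s2 := s0_le_one (y - lev a₀ t)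
    have e1 := ek_nonneg t x
    have e2 := ek_le_one ht x
    set s := s0 (y - lev a₀ t)
    set k := ek t x
    set g := γ t x y
    have h4 := norm_add_le (g • s • gradient (ek t) x) ((s * k) • gradient (fun z => γ t z y) x)
    rw [norm_smul, norm_smul, norm_smul, Real.norm_eq_abs, Real.norm_eq_abs, Real.norm_eq_abs,
      abs_of_nonneg h0, abs_of_nonneg s1, abs_of_nonneg (mul_nonneg s1 e1)] at h4
    set u := ‖gradient (ek t) x‖
    set v := ‖gradient (fun z => γ t z y) x‖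
    have h5 := pow_le_pow_left₀ (norm_nonneg _) h4 2
    have h6 : (g * (s * u) + s * k * v) ^ 2 ≤ 2 * (g * s) ^ 2 * u ^ 2 + 2 * (s * k) ^ 2 * v ^ 2 := by
      nlinarith [sq_nonneg (g * (s * u) - s * k * v)]
    have h7 : 2 * (g * s) ^ 2 * u ^ 2 ≤ 2 * (g * s) ^ 2 * (18 * k) := by gcongr
    have h8 : 2 * (s * k) ^ 2 * v ^ 2 ≤ 2 * (s * k) ^ 2 * (g * E) := by gcongr
    have h9 : g * s ≤ 1 := mul_le_one₀ h1 s1 s2
    have h10 : s * k ≤ 1 := mul_le_one₀ s2 e1 e2
    have h11 : 0 ≤ g * (s * k) := by positivity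
    have h12 : g * (s * k) * (g * s) ≤ g * (s * k) * 1 := by gcongr
    have h13 : g * (s * k) * E * (s * k) ≤ g * (s * k) * E * 1 := by gcongr
    nlinarith
  · rw [s0_eq_zero (by linarith)]
    simp

lemma deriv_gam_le (ht : -1 / 4 ≤ t) {y E c : ℝ}
    (h : ContDiffAt ℝ 2 (fun p : ℝ × E3 × ℝ => γ p.1 p.2.1 p.2.2) (t, x, y))
    (h0 : 0 ≤ γ t x y) (hE : 0 ≤ E)
    (hg : y ≤ lev a₀ t → deriv (γ t x) y - c * γ t x y ≤ Real.exp (2 * y) * E) :
    deriv (gam γ a₀ t x) y - c * gam γ a₀ t x y ≤ Real.exp (2 * y) * (2 * E + 36) := by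
  have hy := ((cd_y h).differentiableAt (by norm_num)).hasDerivAt
  have hs : HasDerivAt (fun y => s0 (y - lev a₀ t)) (deriv s0 (y - lev a₀ t)) y :=
    (contDiff_s0.differentiable (by norm_num) _).hasDerivAt.comp_sub_const y _
  have h2 : HasDerivAt (gam γ a₀ t x) _ y := hy.mul (hs.mul_const (ek t x))
  rw [h2.deriv, gam]
  have s1 := s0_nonneg (y - lev a₀ t)
  have s2 := s0_le_one (y - lev a₀ t)
  have s3 := deriv_s0_nonpos (y - lev a₀ t)
  have e1 := ek_nonneg t x
  have e2 := ek_le_one ht x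
  have h3 : γ t x y * (deriv s0 (y - lev a₀ t) * ek t x) ≤ 0 :=
    mul_nonpos_of_nonneg_of_nonpos h0 (mul_nonpos_of_nonpos_of_nonneg s3 e1)
  have h5 := Real.exp_pos (2 * y)
  have h6 : 0 ≤ Real.exp (2 * y) * E := by positivity
  rcases le_total y (lev a₀ t) with hy | hy
  · have h4 := hg hy
    have h10 : s0 (y - lev a₀ t) * ek t x ≤ 1 := mul_le_one₀ s2 e1 e2
    have h11 : 0 ≤ s0 (y - lev a₀ t) * ek t x := mul_nonneg s1 e1
    have h7 := mul_le_mul_of_nonneg_right h4 h11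
    nlinarith
  · rw [s0_eq_zero (u := y - lev a₀ t) (by linarith)] at *
    nlinarith

lemma heat_gam_le (w : ℝ → E3 → ℝ) (ht : -1 / 4 ≤ t) (ht0 : t < 0)
    (hn : ‖gradient (w t) x‖ = 1) {y : ℝ}
    (h : ContDiffAt ℝ 2 (fun p : ℝ × E3 × ℝ => γ p.1 p.2.1 p.2.2) (t, x, y))
    (h0 : 0 ≤ γ t x y) :
    heat w (fun s z => gam γ a₀ s z y) t x ≤ s0 (y - lev a₀ t) *
      (max (heat w (fun s z => γ s z y) t x) 0 + 20 * ‖gradient (fun z => γ t z y) x‖)
      + γ t x y * deriv s0 (y - lev a₀ t) * (ek t x / (2 * -t)) := by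
  have h1 := cd_tx h
  have he := ek_slice t x
  have het := (slice_t (f := ek) (t := t) (x := x) contDiff_ek.contDiffAt).differentiableAt
    (by norm_num)
  have hs : HasDerivAt (fun s => s0 (y - lev a₀ s)) (deriv s0 (y - lev a₀ t) * (1 / (2 * -t))) t := by
    have := (contDiff_s0.differentiable (by norm_num) (y - lev a₀ t)).hasDerivAt.comp t
      ((hasDerivAt_lev a₀ ht0).const_sub y)
    rwa [neg_neg] at this
  have h2 := heat_mul w (f := fun s z => γ s z y) (g := fun s z => s0 (y - lev a₀ s) * ek s z)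
    (slice_x (f := fun s z => γ s z y) h1) (contDiffAt_const.mul he)
    ((slice_t (f := fun s z => γ s z y) h1).differentiableAt (by norm_num))
    (hs.differentiableAt.mul het)
  have h3 : heat w (fun s z => s0 (y - lev a₀ s) * ek s z) t x = s0 (y - lev a₀ t) * heat w ek t x
      + deriv s0 (y - lev a₀ t) * (ek t x / (2 * -t)) := by
    simp only [heat]
    rw [deriv_fun_mul hs.differentiableAt het, hs.deriv, trT_const_mul _ he]
    ring
  simp only [gam]
  rw [h2, h3, gradient_const_mul _ (he.differentiableAt (by norm_num))]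
  have h4 := abs_le.1 (abs_tan_inner_le hn (gradient (fun z => γ t z y) x) (gradient (ek t) x))
  have h5 := norm_gradient_ek_le ht x
  have h6 := heat_ek w t hn
  have s1 := s0_nonneg (y - lev a₀ t)
  have e1 := ek_nonneg t x
  have e2 := ek_le_one ht x
  simp only [real_inner_smul_left, real_inner_smul_right]
  set s := s0 (y - lev a₀ t)
  set H := heat w (fun s z => γ s z y) t x
  set v := ‖gradient (fun z => γ t z y) x‖
  have hv : 0 ≤ v := norm_nonneg _
  have h7 : ek t x * H ≤ max H 0 := by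
    have := le_max_left H 0
    have := le_max_right H 0
    nlinarith
  have h8 : γ t x y * (s * heat w ek t x) ≤ 0 :=
    mul_nonpos_of_nonneg_of_nonpos h0 (mul_nonpos_of_nonneg_of_nonpos s1 h6)
  have h9 : v * ‖gradient (ek t) x‖ ≤ v * 5 := by gcongr
  have h10 := mul_le_mul_of_nonneg_left h7 s1
  have h11 := mul_le_mul_of_nonneg_left (h4.1.trans' (by linarith : -(10 * v) ≤ _)) s1
  nlinarith

lemma continuous_heat (w : ℝ → E3 → ℝ)
    (h : ∀ y, ContDiffAt ℝ 2 (fun p : ℝ × E3 × ℝ => γ p.1 p.2.1 p.2.2) (t, x, y)) :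
    Continuous fun y => heat w (fun s z => γ s z y) t x := by
  refine continuous_iff_continuousAt.2 fun y => ContinuousAt.sub ?_ ?_
  · refine continuousAt_deriv_param (f := fun y s => γ s x y) ?_
    exact ContDiffAt.comp (f := fun p : ℝ × ℝ => (p.2, x, p.1)) (y, t)
      ((h y).of_le (by norm_num)) (by fun_prop)
  · refine continuousAt_trT_param (f := fun y z => γ t z y) ?_ _
    exact (h y).comp (y, x) (contDiffAt_const.prodMk (contDiffAt_snd.prodMk contDiffAt_fst))

lemma continuous_gradient_y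
    (h : ∀ y, ContDiffAt ℝ 2 (fun p : ℝ × E3 × ℝ => γ p.1 p.2.1 p.2.2) (t, x, y)) :
    Continuous fun y => gradient (fun z => γ t z y) x := by
  refine continuous_iff_continuousAt.2 fun y => ?_
  refine continuousAt_gradient_param (f := fun y z => γ t z y) ?_
  exact ContDiffAt.comp (f := fun p : ℝ × E3 => (t, p.2, p.1)) (y, x)
    ((h y).of_le (by norm_num)) (by fun_prop)

lemma integrableOn_of_zero_above {f : ℝ → ℝ} (hf : Continuous f) {S : Set ℝ}
    (hS : MeasurableSet S) {y₀ y₁ : ℝ} (h0 : ∀ y ∈ S, y₀ < y) (h1 : ∀ y, y₁ < y → f y = 0) :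
    IntegrableOn f S := by
  refine (hf.integrableOn_Icc (a := y₀) (b := y₁)).of_forall_sdiff_eq_zero hS fun y hy => h1 y ?_
  by_contra h
  exact hy.2 ⟨(h0 y hy.1).le, not_lt.1 h⟩

lemma setIntegral_le_of_lintegral {f : ℝ → ℝ} {S : Set ℝ} (hS : MeasurableSet S) {a B : ℝ}
    (hf : IntegrableOn f S) (hB : 0 ≤ B) {g : ℝ → ℝ≥0∞}
    (h1 : ∀ y, y ≤ a → ENNReal.ofReal (f y) ≤ g y) (h2 : ∀ y, a < y → f y = 0)
    (h0 : ∀ y, 0 ≤ f y) (hg : ∫⁻ y in Iic a, g y ≤ ENNReal.ofReal B) : ∫ y in S, f y ≤ B := by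
  rw [integral_eq_lintegral_of_nonneg_ae (Eventually.of_forall h0) hf.aestronglyMeasurable]
  refine ENNReal.toReal_le_of_le_ofReal hB (le_trans ?_ hg)
  rw [← lintegral_indicator hS, ← lintegral_indicator measurableSet_Iic]
  refine lintegral_mono fun y => ?_
  by_cases hy : y ≤ a
  · rw [indicator_of_mem (show y ∈ Iic a from hy)]
    exact (indicator_le_self _ _ y).trans (h1 y hy)
  · refine (indicator_le_self _ _ y).trans ?_
    rw [h2 y (not_le.1 hy), ENNReal.ofReal_zero]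
    exact zero_le

/-- the integrated estimate, with the gain -/
lemma integral_heat_gam_le (w : ℝ → E3 → ℝ) (ht : -1 / 4 ≤ t) (ht0 : t < 0)
    (hn : ‖gradient (w t) x‖ = 1)
    (h : ∀ y, ContDiffAt ℝ 2 (fun p : ℝ × E3 × ℝ => γ p.1 p.2.1 p.2.2) (t, x, y))
    (h0 : ∀ y, 0 ≤ γ t x y) {S : Set ℝ} (hS : MeasurableSet S) {y₀ : ℝ} (hy₀ : ∀ y ∈ S, y₀ < y)
    {B₁ B₃ : ℝ} (hB₁ : 0 ≤ B₁) (hB₃ : 0 ≤ B₃)
    (h1 : ∫⁻ y in Iic (lev a₀ t), ENNReal.ofReal (heat w (fun s z => γ s z y) t x)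
      ≤ ENNReal.ofReal B₁)
    (h3 : ∫⁻ y in Iic (lev a₀ t), ‖gradient (fun z => γ t z y) x‖ₑ ≤ ENNReal.ofReal B₃) :
    ∫ y in S, heat w (fun s z => gam γ a₀ s z y) t x ≤ B₁ + 20 * B₃ ∧
      ((∀ y ∈ Icc (lev a₀ t - 1) (lev a₀ t), y ∈ S ∧ γ t x y = 1) →
        ∫ y in S, heat w (fun s z => gam γ a₀ s z y) t x ≤ B₁ + 20 * B₃ - ek t x / (2 * -t)) := by
  set a := lev a₀ t with ha
  have cs : Continuous fun y => s0 (y - a) := contDiff_s0.continuous.comp (by fun_prop)
  have cs' : Continuous fun y => deriv s0 (y - a) :=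
    (contDiff_s0.continuous_deriv (by norm_num)).comp (by fun_prop)
  have cg : Continuous (γ t x) := continuous_iff_continuousAt.2 fun y => (cd_y (h y)).continuousAt
  have z1 : ∀ y, a < y → s0 (y - a) = 0 := fun y hy => s0_eq_zero (by linarith)
  have z2 : ∀ y, a < y → deriv s0 (y - a) = 0 := fun y hy => by
    have : s0 =ᶠ[𝓝 (y - a)] fun _ => 0 := by
      filter_upwards [lt_mem_nhds (show 0 < y - a by linarith)] with u hu using s0_eq_zero hu.le
    rw [this.deriv_eq, deriv_const]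
  have i1 : IntegrableOn (fun y => s0 (y - a) * max (heat w (fun s z => γ s z y) t x) 0) S :=
    integrableOn_of_zero_above (y₁ := a) (cs.mul ((continuous_heat w h).max continuous_const)) hS hy₀
      fun y hy => by simp only [Pi.mul_apply, z1 y hy, zero_mul]
  have i2 : IntegrableOn (fun y => s0 (y - a) * ‖gradient (fun z => γ t z y) x‖) S :=
    integrableOn_of_zero_above (y₁ := a) (cs.mul (continuous_gradient_y h).norm) hS hy₀
      fun y hy => by simp only [Pi.mul_apply, z1 y hy, zero_mul]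
  have i3 : IntegrableOn (fun y => γ t x y * deriv s0 (y - a)) S :=
    integrableOn_of_zero_above (y₁ := a) (cg.mul cs') hS hy₀
      fun y hy => by simp only [Pi.mul_apply, z2 y hy, mul_zero]
  have i4 : IntegrableOn (fun y => heat w (fun s z => gam γ a₀ s z y) t x) S := by
    refine integrableOn_of_zero_above (y₁ := a)
      (continuous_heat w fun y => contDiffAt_gam ht0 (h y)) hS hy₀ fun y hy => ?_
    have h4 : ∀ᶠ s in 𝓝 t, lev a₀ s < y :=
      (contDiffAt_lev a₀ ht0).continuousAt.eventually (gt_mem_nhds hy)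
    have h5 : (fun s => gam γ a₀ s x y) =ᶠ[𝓝 t] fun _ => 0 := h4.mono fun s hs => gam_eq_zero hs.le
    have h6 : (fun z => gam γ a₀ t z y) = fun _ => 0 := funext fun z => gam_eq_zero hy.le
    simp only [heat]
    rw [h5.deriv_eq, h6, trT_hs contDiffAt_const]
    simp
  have b1 := setIntegral_le_of_lintegral hS i1 hB₁ (fun y _ => by
    refine (ENNReal.ofReal_le_ofReal (mul_le_of_le_one_left (le_max_right _ _) (s0_le_one _))).trans ?_
    rw [ENNReal.ofReal_max, ENNReal.ofReal_zero, max_eq_left zero_le])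
    (fun y hy => by rw [z1 y hy, zero_mul])
    (fun y => mul_nonneg (s0_nonneg _) (le_max_right _ _)) h1
  have b2 := setIntegral_le_of_lintegral hS i2 hB₃ (fun y _ => by
    refine (ENNReal.ofReal_le_ofReal (mul_le_of_le_one_left (norm_nonneg _) (s0_le_one _))).trans ?_
    rw [ofReal_norm])
    (fun y hy => by rw [z1 y hy, zero_mul])
    (fun y => mul_nonneg (s0_nonneg _) (norm_nonneg _)) h3
  have b0 : ∫ y in S, heat w (fun s z => gam γ a₀ s z y) t x
      ≤ B₁ + 20 * B₃ + (∫ y in S, γ t x y * deriv s0 (y - a)) * (ek t x / (2 * -t)) := by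
    have h4 := setIntegral_mono_on i4 ((i1.add (i2.const_mul 20)).add (i3.mul_const
      (ek t x / (2 * -t)))) hS fun y _ => (heat_gam_le w ht ht0 hn (h y) (h0 y)).trans
        (le_of_eq (by simp only [Pi.add_apply, ← ha]; ring))
    rw [integral_add' (i1.add (i2.const_mul 20)) (i3.mul_const _),
      integral_add' i1 (i2.const_mul 20), integral_const_mul, integral_mul_const] at h4
    linarith
  have hk : 0 ≤ ek t x / (2 * -t) := div_nonneg (ek_nonneg _ _) (by linarith)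
  have hneg : ∀ y, γ t x y * deriv s0 (y - a) ≤ 0 := fun y =>
    mul_nonpos_of_nonneg_of_nonpos (h0 y) (deriv_s0_nonpos _)
  constructor
  · have := mul_nonpos_of_nonpos_of_nonneg 
      (setIntegral_nonpos (μ := volume) hS fun y _ => hneg y) hk
    linarith
  · intro hI
    have h4 : ∫ y in S, γ t x y * deriv s0 (y - a)
        ≤ ∫ y in Icc (a - 1) a, γ t x y * deriv s0 (y - a) := by
      have := setIntegral_mono_set (s := Icc (a - 1) a) i3.neg
        (Eventually.of_forall fun y => neg_nonneg.2 (hneg y))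
        (LE.le.eventuallyLE fun y hy => (hI y hy).1)
      simp only [Pi.neg_apply, integral_neg] at this
      linarith
    have h5 : ∫ y in Icc (a - 1) a, γ t x y * deriv s0 (y - a) = -1 := by
      rw [setIntegral_congr_fun measurableSet_Icc (g := fun y => deriv s0 (y - a))
        fun y hy => by simp only [(hI y hy).2, one_mul], integral_Icc_eq_integral_Ioc,
        ← intervalIntegral.integral_of_le (by linarith), intervalIntegral.integral_comp_sub_right,
        intervalIntegral.integral_deriv_eq_sub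
          (fun u _ => contDiff_s0.differentiable (by norm_num) u)
          ((contDiff_s0.continuous_deriv (by norm_num)).intervalIntegrable _ _),
        s0_eq_zero (by linarith), s0_eq_one (by linarith)]
      norm_num
    have h6 := mul_le_mul_of_nonneg_right (h4.trans h5.le) hk
    linarith

end Vale.Agent.P218UM
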