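import Vale.Agent.P218UA.Props2
import Vale.Agent.P218GA.Lim

/-! Basic facts about the kernel `kk`, the mass ratio `mk`, and the sets `Om`. -/

open MeasureTheory Set Filter Topology Metric
open scoped ENNReal NNReal RealInnerProductSpace ContDiff

namespace Vale.Agent.P218UM

open Vale.Agent.P218UA

lemma hasDerivAt_max_pow (k : ℕ) (s : ℝ) :
    HasDerivAt (fun s : ℝ => max s 0 ^ (k + 2)) ((k + 2) * max s 0 ^ (k + 1)) s := by
  rcases lt_trichotomy s 0 with h | rfl | h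
  · have : (fun s : ℝ => max s 0 ^ (k + 2)) =ᶠ[𝓝 s] fun _ => 0 := by
      filter_upwards [gt_mem_nhds h] with t ht
      simp [max_eq_right ht.le]
    rw [max_eq_right h.le]
    simpa using (hasDerivAt_const s (0 : ℝ)).congr_of_eventuallyEq this
  · rw [hasDerivAt_iff_isLittleO_nhds_zero]
    simp only [zero_add, max_self, ne_eq, Nat.add_eq_zero_iff, OfNat.ofNat_ne_zero, and_false,
      not_false_eq_true, zero_pow, sub_zero, one_ne_zero, mul_zero, smul_zero]
    refine Asymptotics.IsBigO.trans_isLittleO (g := fun h : ℝ => h ^ (k + 2)) ?_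
      (Asymptotics.isLittleO_pow_id (by omega))
    refine Asymptotics.IsBigO.of_bound 1 (Eventually.of_forall fun t => ?_)
    rw [one_mul, norm_pow, norm_pow]
    refine pow_le_pow_left₀ (norm_nonneg _) ?_ _
    rcases le_total t 0 with h | h
    · simp [max_eq_right h]
    · simp [max_eq_left h]
  · have : (fun s : ℝ => max s 0 ^ (k + 2)) =ᶠ[𝓝 s] fun s => s ^ (k + 2) := by
      filter_upwards [lt_mem_nhds h] with t ht
      simp [max_eq_left ht.le]
    rw [max_eq_left h.le]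
    simpa using (hasDerivAt_pow (k + 2) s).congr_of_eventuallyEq this

lemma contDiff_max_sq : ContDiff ℝ 1 fun s : ℝ => max s 0 ^ 2 := by
  rw [contDiff_one_iff_deriv]
  refine ⟨fun s => (hasDerivAt_max_pow 0 s).differentiableAt, ?_⟩
  have : deriv (fun s : ℝ => max s 0 ^ 2) = fun s => 2 * max s 0 := by
    ext s
    simpa using (hasDerivAt_max_pow 0 s).deriv
  rw [this]
  fun_prop

lemma contDiff_max_cube : ContDiff ℝ 2 fun s : ℝ => max s 0 ^ 3 := by
  rw [show (2 : WithTop ℕ∞) = 1 + 1 from rfl, contDiff_succ_iff_deriv]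
  refine ⟨fun s => (hasDerivAt_max_pow 1 s).differentiableAt, by simp, ?_⟩
  have : deriv (fun s : ℝ => max s 0 ^ 3) = fun s => 3 * max s 0 ^ 2 := by
    ext s
    have := (hasDerivAt_max_pow 1 s).deriv
    norm_num at this ⊢
    exact this
  rw [this]
  exact contDiff_const.mul contDiff_max_sq

lemma contDiff_kk : ContDiff ℝ 2 kk := by
  unfold kk
  exact contDiff_const.mul
    (contDiff_max_cube.comp (contDiff_const.sub (contDiff_norm_sq ℝ)))

lemma continuous_kk : Continuous kk := contDiff_kk.continuous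

lemma kk_nonneg (z : E3) : 0 ≤ kk z := by
  unfold kk
  positivity

lemma kk_le (z : E3) : kk z ≤ 4 / Real.pi := by
  unfold kk
  have h1 : max (1 - ‖z‖ ^ 2) 0 ≤ 1 := max_le (by nlinarith [sq_nonneg ‖z‖]) zero_le_one
  have h2 : max (1 - ‖z‖ ^ 2) 0 ^ 3 ≤ 1 := pow_le_one₀ (le_max_right _ _) h1
  have h3 : 0 ≤ 4 / Real.pi := by positivity
  nlinarith

lemma four_div_pi_le : 4 / Real.pi ≤ 4 / 3 :=
  div_le_div_of_nonneg_left (by norm_num) (by norm_num) Real.pi_gt_three.le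

lemma kk_eq_zero {z : E3} (h : 1 ≤ ‖z‖) : kk z = 0 := by
  unfold kk
  rw [max_eq_right (by nlinarith [norm_nonneg z])]
  simp

lemma kk_anti {a b : E3} (h : ‖a‖ ≤ ‖b‖) : kk b ≤ kk a := by
  unfold kk
  have h1 : max (1 - ‖b‖ ^ 2) 0 ≤ max (1 - ‖a‖ ^ 2) 0 :=
    max_le_max (by nlinarith [norm_nonneg a]) le_rfl
  gcongr

lemma hasFDerivAt_kk (z : E3) : HasFDerivAt kk
    ((4 / Real.pi * (3 * max (1 - ‖z‖ ^ 2) 0 ^ 2)) • (-(2 • innerSL ℝ z : E3 →L[ℝ] ℝ))) z := by
  have h1 : HasFDerivAt (fun z : E3 => 1 - ‖z‖ ^ 2) (-(2 • innerSL ℝ z)) z :=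
    (hasStrictFDerivAt_norm_sq z).hasFDerivAt.const_sub 1
  have h2 := ((hasDerivAt_max_pow 1 (1 - ‖z‖ ^ 2)).comp_hasFDerivAt z h1).const_mul (4 / Real.pi)
  rw [smul_smul] at h2
  norm_num at h2
  rw [smul_neg]
  exact h2

lemma norm_fderiv_kk_le (z : E3) : ‖fderiv ℝ kk z‖ ≤ 8 := by
  rw [(hasFDerivAt_kk z).fderiv, norm_smul, norm_neg, Real.norm_eq_abs,
    abs_of_nonneg (by positivity)]
  have h2 : ‖(2 • innerSL ℝ z : E3 →L[ℝ] ℝ)‖ ≤ 2 * ‖z‖ := by
    rw [two_smul]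
    refine (norm_add_le _ _).trans ?_
    rw [innerSL_apply_norm]
    linarith
  have h4 := four_div_pi_le
  have h5 : 0 ≤ 4 / Real.pi := by positivity
  rcases le_total 1 ‖z‖ with h | h
  · rw [max_eq_right (by nlinarith [norm_nonneg z])]
    simp
  · have h1 : max (1 - ‖z‖ ^ 2) 0 ≤ 1 := max_le (by nlinarith [sq_nonneg ‖z‖]) zero_le_one
    have h3 : max (1 - ‖z‖ ^ 2) 0 ^ 2 ≤ 1 := pow_le_one₀ (le_max_right _ _) h1
    have h6 : 4 / Real.pi * (3 * max (1 - ‖z‖ ^ 2) 0 ^ 2) ≤ 4 := by nlinarith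
    have h7 := norm_nonneg (2 • innerSL ℝ z : E3 →L[ℝ] ℝ)
    nlinarith

lemma abs_kk_sub_le (a b : E3) : |kk a - kk b| ≤ 8 * ‖a - b‖ := by
  have := convex_univ.norm_image_sub_le_of_norm_fderiv_le (𝕜 := ℝ) (f := kk)
    (fun z _ => (hasFDerivAt_kk z).differentiableAt) (fun z _ => norm_fderiv_kk_le z)
    (mem_univ b) (mem_univ a)
  simpa using this

/-- the rescaled kernel -/
lemma kk_scale_zero {x y : E3} {r : ℝ} (hr : 0 < r) (h : r ≤ ‖y - x‖) :
    kk (r⁻¹ • (y - x)) = 0 := by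
  refine kk_eq_zero ?_
  rw [norm_smul, norm_inv, Real.norm_eq_abs, abs_of_pos hr, ← div_eq_inv_mul, le_div_iff₀ hr]
  linarith

lemma hasCompactSupport_kk (x : E3) {r : ℝ} (hr : 0 < r) :
    HasCompactSupport fun y : E3 => kk (r⁻¹ • (y - x)) := by
  refine HasCompactSupport.intro (isCompact_closedBall x r) fun y hy => kk_scale_zero hr ?_
  rw [mem_closedBall_iff_norm, not_le] at hy
  exact hy.le

lemma continuous_kk_scale (x : E3) (r : ℝ) : Continuous fun y : E3 => kk (r⁻¹ • (y - x)) :=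
  continuous_kk.comp (by fun_prop)

lemma _root_.Vale.Agent.P218UA.AR.locFin {μ : Measure E3} {A : ℝ} (h : AR μ A) :
    IsLocallyFiniteMeasure μ :=
  ⟨fun x => ⟨closedBall x 1, closedBall_mem_nhds x one_pos,
    (h x 1 one_pos).trans_lt ENNReal.ofReal_lt_top⟩⟩

lemma _root_.Vale.Agent.P218UA.AR.real_le {μ : Measure E3} {A : ℝ} (h : AR μ A) (hA : 0 ≤ A)
    (x : E3) {r : ℝ} (hr : 0 < r) : μ.real (closedBall x r) ≤ A * r ^ 2 :=
  ENNReal.toReal_le_of_le_ofReal (by positivity) (h x r hr)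

lemma integrable_kk (μ : Measure E3) [IsLocallyFiniteMeasure μ] (x : E3) {r : ℝ} (hr : 0 < r) :
    Integrable (fun y : E3 => kk (r⁻¹ • (y - x))) μ :=
  (continuous_kk_scale x r).integrable_of_hasCompactSupport (hasCompactSupport_kk x hr)

lemma mk_nonneg (μ : Measure E3) (x : E3) (r : ℝ) : 0 ≤ mk μ x r :=
  div_nonneg (integral_nonneg fun _ => kk_nonneg _) (sq_nonneg r)

/-- a function bounded by `B` and supported in a ball -/
lemma abs_integral_le_ball {μ : Measure E3} [IsLocallyFiniteMeasure μ] {f : E3 → ℝ} {x : E3}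
    {r B : ℝ} (h0 : ∀ y, y ∉ closedBall x r → f y = 0) (hB : ∀ y, |f y| ≤ B) :
    |∫ y, f y ∂μ| ≤ B * μ.real (closedBall x r) := by
  rw [← setIntegral_eq_integral_of_forall_compl_eq_zero h0]
  exact norm_setIntegral_le_of_norm_le_const (f := f) (isCompact_closedBall x r).measure_lt_top
    fun y _ => by simpa using hB y

lemma mk_le_mass {μ : Measure E3} [IsLocallyFiniteMeasure μ] (x : E3) {r : ℝ} (hr : 0 < r) :
    mk μ x r ≤ 4 / 3 * μ.real (closedBall x r) / r ^ 2 := by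
  refine div_le_div_of_nonneg_right ((le_abs_self _).trans (abs_integral_le_ball
    (fun y hy => kk_scale_zero hr ?_) fun y => ?_)) (sq_nonneg r)
  · rw [mem_closedBall_iff_norm, not_le] at hy
    exact hy.le
  · rw [abs_of_nonneg (kk_nonneg _)]
    exact (kk_le _).trans four_div_pi_le

lemma mk_le {μ : Measure E3} {A : ℝ} (h : AR μ A) (hA : 0 ≤ A) (x : E3) {r : ℝ} (hr : 0 < r) :
    mk μ x r ≤ 4 / 3 * A := by
  have := h.locFin
  refine (mk_le_mass x hr).trans ?_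
  rw [div_le_iff₀ (by positivity)]
  have := h.real_le hA x hr
  nlinarith

/-- Lipschitz dependence on the centre -/
lemma abs_mk_sub_le {μ : Measure E3} {A : ℝ} (h : AR μ A) (hA : 0 ≤ A) {x x' : E3} {r : ℝ}
    (hr : 0 < r) (hx : ‖x - x'‖ ≤ r) : |mk μ x r - mk μ x' r| ≤ 32 * A * (‖x - x'‖ / r) := by
  have := h.locFin
  unfold P218UA.mk
  rw [← sub_div, ← integral_sub (integrable_kk μ x hr) (integrable_kk μ x' hr), abs_div,
    abs_of_pos (by positivity : 0 < r ^ 2), div_le_iff₀ (by positivity)]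
  have h1 := abs_integral_le_ball (μ := μ) (x := x) (r := 2 * r) (B := 8 * (‖x - x'‖ / r))
    (f := fun y => kk (r⁻¹ • (y - x)) - kk (r⁻¹ • (y - x'))) (fun y hy => ?_) fun y => ?_
  · have h2 := h.real_le hA x (r := 2 * r) (by positivity)
    have h3 : 0 ≤ ‖x - x'‖ / r := by positivity
    nlinarith
  · rw [mem_closedBall_iff_norm, not_le] at hy
    have h2 : ‖y - x‖ ≤ ‖y - x'‖ + ‖x - x'‖ := by
      have := norm_sub_le (y - x') (x - x')
      rwa [sub_sub_sub_cancel_right] at this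
    rw [kk_scale_zero hr (by linarith), kk_scale_zero hr (by linarith), sub_zero]
  · refine (abs_kk_sub_le _ _).trans (le_of_eq ?_)
    rw [← smul_sub, sub_sub_sub_cancel_left, norm_smul, norm_inv, Real.norm_eq_abs, abs_of_pos hr,
      norm_sub_rev x' x]
    ring

lemma mk_eq_lintegral (μ : Measure E3) (x : E3) (r : ℝ) :
    mk μ x r = (∫⁻ y, ENNReal.ofReal (kk (r⁻¹ • (y - x))) ∂μ).toReal / r ^ 2 := by
  rw [P218UA.mk, integral_eq_lintegral_of_nonneg_ae (Eventually.of_forall fun _ => kk_nonneg _)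
    (continuous_kk_scale x r).aestronglyMeasurable]

lemma locFin_ar {w : E3 → ℝ} (hw : ContDiff ℝ 1 w) (h1 : ∀ x, w x = 0 → ‖gradient w x‖ = 1) :
    IsLocallyFiniteMeasure (ar w) := by
  have h := P218GA.area_locallyFinite (m := 2) (by simp) hw h1
  have e : ar w = (P218GA.cH 2)⁻¹ • P218GA.area 2 w := by
    rw [P218GA.area, P218GA.hausdorff_eq_smul, Measure.restrict_smul, smul_smul,
      inv_mul_cancel₀ (P218GA.cH_pos 2).ne', one_smul, ar]
  rw [e]
  infer_instance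

lemma gradient_inner_sub (n : E3) (h : ℝ) (x : E3) :
    gradient (fun z : E3 => ⟪z, n⟫ - h) x = n := by
  have h1 : HasFDerivAt (fun z : E3 => ⟪z, n⟫ - h) (InnerProductSpace.toDual ℝ E3 n) x := by
    have h2 : HasFDerivAt (fun z : E3 => ⟪n, z⟫) (innerSL ℝ n) x := (innerSL ℝ n).hasFDerivAt
    have h3 := h2.sub_const h
    simp only [real_inner_comm n]
    exact h3
  exact (hasGradientAt_iff_hasFDerivAt.2 h1).gradient

lemma locFin_plane {n : E3} (hn : ‖n‖ = 1) (h : ℝ) :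
    IsLocallyFiniteMeasure ((μHE[2] : Measure E3).restrict {z | ⟪z, n⟫ = h}) := by
  have h1 := locFin_ar (w := fun z : E3 => ⟪z, n⟫ - h)
    ((contDiff_id.inner ℝ contDiff_const).sub contDiff_const)
    fun x _ => by rw [gradient_inner_sub, hn]
  simpa only [ar, sub_eq_zero] using h1

lemma integral_pl {n : E3} (hn : ‖n‖ = 1) {k : ℕ} (h : Fin k → ℝ) {f : E3 → ℝ}
    (hf : Continuous f) (hc : HasCompactSupport f) :
    ∫ y, f y ∂(pl n h) = ∑ i, ∫ y, f y ∂((μHE[2] : Measure E3).restrict {z | ⟪z, n⟫ = h i}) := by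
  refine integral_finsetSum_measure fun i _ => ?_
  have := locFin_plane hn (h i)
  exact hf.integrable_of_hasCompactSupport hc

lemma Reg.mono {w : E3 → ℝ} {θ : ℝ} {x : E3} {r r' : ℝ} (h : Reg w θ x r) (hr : r' ≤ r) :
    Reg w θ x r' := by
  obtain ⟨n, hn, h⟩ := h
  exact ⟨n, hn, fun z hz z' hz' => h z (ball_subset_ball hr hz) z' (ball_subset_ball hr hz')⟩

lemma Om_up {w : ℝ → E3 → ℝ} {I : Set ℝ} {A σ θ t : ℝ} {x : E3} {y y' : ℝ}
    (h : y ∈ Om w I A σ θ t x) (hy : y ≤ y') : y' ∈ Om w I A σ θ t x := by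
  rcases h with h | ⟨a, h1, h2, h3⟩
  · exact Or.inl fun h' => h (Reg.mono h' (Real.exp_le_exp.2 hy))
  · exact Or.inr ⟨a, h1, h2, h3.trans_le hy⟩

end Vale.Agent.P218UM
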