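import Vale.Agent.P218UM.Win

/-! The error terms of the weighted estimate. -/

open MeasureTheory Set Filter Topology Metric
open scoped ENNReal NNReal RealInnerProductSpace ContDiff

namespace Vale.Agent.P218UM

open Vale.Agent.P218UA Vale.Agent.P218UD
open Vale.Agent.P218.H63 (lap hessSq)

open Classical in
/-- the active lattice balls at a space-time point -/
noncomputable def act (w : ℝ → E3 → ℝ) (δ Λ a₀ : ℝ) (F : Finset P218UD.Lat) (t : ℝ) (x : E3) :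
    Finset P218UD.Lat :=
  F.filter fun Q => (Q.1 : ℝ) < lev a₀ t + 4 ∧ δ ≤ bbar w (zQ Q) (rQ Q) t ∧ ‖x - zQ Q‖ < Λ * rQ Q

/-- the error term of one lattice ball -/
noncomputable def hQ (w : ℝ → E3 → ℝ) (e : E3 → ℝ) (k₁ k₂ k₃ : ℝ) (Q : P218UD.Lat) (t : ℝ)
    (x : E3) : ℝ :=
  k₁ * (e ((rQ Q)⁻¹ • (x - zQ Q)) / rQ Q ^ 2)
    + (k₂ * |deriv (bbar w (zQ Q) (rQ Q)) t| + k₃ / rQ Q + 1 / (2 * -t))

lemma Phi_le {ρ t : ℝ} (hρ : 0 < ρ) (ht : t ∈ Icc (-ρ ^ 2) (-ρ ^ 2 / 2)) {x z : E3}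
    (h : ‖x - z‖ ≤ ρ) : Phi t x ≤ 2 * (Real.exp (-‖z‖ / ρ) / ρ ^ 2) := by
  have h0 : ρ ^ 2 / 2 ≤ -t := by linarith [ht.2]
  have h1 : 0 < -t := by nlinarith
  have h2 : ‖z‖ ≤ ‖x‖ + ρ := by linarith [norm_sub_norm_le z x, norm_sub_rev z x]
  have h3 : -‖x‖ ^ 2 / (4 * -t) ≤ 2 + -‖z‖ / ρ := by
    have h4 : ‖x‖ ^ 2 / (4 * ρ ^ 2) ≤ ‖x‖ ^ 2 / (4 * -t) :=
      div_le_div_of_nonneg_left (by positivity) (by positivity) (by linarith [ht.1])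
    have h5 : ‖z‖ / ρ ≤ ‖x‖ / ρ + 1 := by
      rw [div_add_one hρ.ne']
      exact div_le_div_of_nonneg_right h2 hρ.le
    have h6 : ‖x‖ ^ 2 / (4 * ρ ^ 2) = (‖x‖ / ρ) ^ 2 / 4 := by field_simp
    rw [neg_div, neg_div]
    nlinarith [sq_nonneg (‖x‖ / ρ - 2)]
  have h4 : Real.exp 2 ≤ 9 := by
    have h5 := Real.exp_one_lt_d9
    have h6 : Real.exp 2 = Real.exp 1 * Real.exp 1 := by rw [← Real.exp_add]; norm_num
    nlinarith [Real.exp_pos 1]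
  have h5 := Real.exp_le_exp.2 h3
  rw [Real.exp_add] at h5
  have h6 := Real.exp_pos (-‖z‖ / ρ)
  rw [Phi, ← mul_div_assoc, div_le_div_iff₀ (by positivity) (by positivity)]
  have h7 : 6 * ρ ^ 2 ≤ 4 * Real.pi * -t := by nlinarith [Real.pi_gt_three]
  calc _ ≤ 9 * Real.exp (-‖z‖ / ρ) * ρ ^ 2 := by gcongr; nlinarith
    _ ≤ 2 * Real.exp (-‖z‖ / ρ) * (6 * ρ ^ 2) := by nlinarith [mul_pos h6 (pow_pos hρ 2)]
    _ ≤ _ := by gcongr

lemma rQ_le {a₀ t : ℝ} (ht : t < 0) {Q : P218UD.Lat} (h : (Q.1 : ℝ) < lev a₀ t + 4) :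
    rQ Q ≤ Real.exp (a₀ + 4) * √(-t) := by
  have h1 : rQ Q ≤ Real.exp (lev a₀ t + 4) := Real.exp_le_exp.2 h.le
  rw [Real.exp_add, exp_lev a₀ ht] at h1
  rw [Real.exp_add]
  linarith

variable {w : ℝ → E3 → ℝ} {e : E3 → ℝ} {δ Λ a₀ k₁ k₂ k₃ A ε ρ r₀ t : ℝ}

theorem slice_loss {μ : Measure E3} (hμ : AR μ A) (hA : 0 ≤ A) (he : Measurable e)
    (he0 : ∀ x, 0 ≤ e x) (hε : 0 ≤ ε)
    (he1 : ∀ (z : E3) (r : ℝ), 0 < r →
      ∫⁻ x, ENNReal.ofReal (e (r⁻¹ • (x - z)) / r ^ 2) ∂μ ≤ ENNReal.ofReal (ε * A))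
    (hρ : 0 < ρ) (hρ1 : ρ ≤ 1) (ht : t ∈ Icc (-ρ ^ 2) (-ρ ^ 2 / 2)) (hΛ : 1 ≤ Λ)
    (hη : Λ * Real.exp (a₀ + 4) ≤ 1) (hr₀ : Real.exp (a₀ + 4) ≤ r₀) (h₁ : 0 ≤ k₁) (h₂ : 0 ≤ k₂)
    (h₃ : 0 ≤ k₃) (F : Finset P218UD.Lat) :
    ∫⁻ x, ENNReal.ofReal (Phi t x * ∑ Q ∈ act w δ Λ a₀ F t x, hQ w e k₁ k₂ k₃ Q t x) ∂μ
      ≤ ∑ Q ∈ F with rQ Q ≤ r₀ * ρ, (ld w δ ρ Q).indicator (fun t => ENNReal.ofReal
        (2 * (Real.exp (-‖zQ Q‖ / ρ) / ρ ^ 2) * (k₁ * (ε * A)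
          + (k₃ + 1) * A * Λ ^ 2 * Real.exp (a₀ + 4)
          + k₂ * A * Λ ^ 2 * (rQ Q ^ 2 * |deriv (bbar w (zQ Q) (rQ Q)) t|)))) t := by
  classical
  have h0 : ρ ^ 2 / 2 ≤ -t := by linarith [ht.2]
  have ht0 : 0 < -t := by nlinarith
  have hs : √(-t) ≤ ρ := Real.sqrt_le_iff.2 ⟨hρ.le, by linarith [ht.1]⟩
  set η := Real.exp (a₀ + 4) with hη'
  have hη0 : 0 < η := Real.exp_pos _
  have hη1 : η ≤ 1 := by nlinarith
  set F' := F.filter fun Q => (Q.1 : ℝ) < lev a₀ t + 4 ∧ δ ≤ bbar w (zQ Q) (rQ Q) t with hF'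
  set W : P218UD.Lat → ℝ := fun Q => 2 * (Real.exp (-‖zQ Q‖ / ρ) / ρ ^ 2) with hW
  have hW0 : ∀ Q, 0 ≤ W Q := fun Q => by positivity
  set c : P218UD.Lat → ℝ := fun Q =>
    k₂ * |deriv (bbar w (zQ Q) (rQ Q)) t| + k₃ / rQ Q + 1 / (2 * -t) with hc
  have hc0 : ∀ Q, 0 ≤ c Q := fun Q => by have := rQ_pos Q; positivity
  have hE0 : ∀ Q x, 0 ≤ e ((rQ Q)⁻¹ • (x - zQ Q)) / rQ Q ^ 2 := fun Q x =>
    div_nonneg (he0 _) (sq_nonneg _)
  have hr : ∀ Q ∈ F', rQ Q ≤ η * √(-t) := fun Q hQ =>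
    rQ_le (by linarith) (Finset.mem_filter.1 hQ).2.1
  have hr' : ∀ Q ∈ F', rQ Q ≤ η * ρ := fun Q hQ =>
    (hr Q hQ).trans (mul_le_mul_of_nonneg_left hs hη0.le)
  have hm : ∀ Q, Measurable fun x : E3 =>
      ENNReal.ofReal (e ((rQ Q)⁻¹ • (x - zQ Q)) / rQ Q ^ 2) := fun Q =>
    ((he.comp (by fun_prop)).div_const _).ennreal_ofReal
  calc _ ≤ ∫⁻ x, ∑ Q ∈ F', (ENNReal.ofReal (W Q * k₁) *
          ENNReal.ofReal (e ((rQ Q)⁻¹ • (x - zQ Q)) / rQ Q ^ 2)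
        + (closedBall (zQ Q) (Λ * rQ Q)).indicator (fun _ => ENNReal.ofReal (W Q * c Q)) x) ∂μ := by
        refine lintegral_mono fun x => ?_
        have hP := (Phi_pos (by linarith : t < 0) x).le
        rw [Finset.mul_sum, ENNReal.ofReal_sum_of_nonneg
          (f := fun Q => Phi t x * hQ w e k₁ k₂ k₃ Q t x) fun Q _ =>
          mul_nonneg hP (add_nonneg (mul_nonneg h₁ (hE0 Q x)) (hc0 Q))]
        refine le_trans (Finset.sum_le_sum fun Q hQ => ?_) (Finset.sum_le_sum_of_subset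
          (s := act w δ Λ a₀ F t x) fun Q hQ => ?_)
        · obtain ⟨hQ0, hQ1, hQ2, hQ3⟩ := Finset.mem_filter.1 hQ
          have h4 := hr' Q (Finset.mem_filter.2 ⟨hQ0, hQ1, hQ2⟩)
          have h5 : Phi t x ≤ W Q := Phi_le hρ ht (hQ3.le.trans (by nlinarith [rQ_pos Q]))
          rw [indicator_of_mem (mem_closedBall_iff_norm.2 hQ3.le),
            ← ENNReal.ofReal_mul (mul_nonneg (hW0 Q) h₁), ← ENNReal.ofReal_add
              (mul_nonneg (mul_nonneg (hW0 Q) h₁) (hE0 Q x)) (mul_nonneg (hW0 Q) (hc0 Q))]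
          refine ENNReal.ofReal_le_ofReal ?_
          calc _ ≤ W Q * (k₁ * (e ((rQ Q)⁻¹ • (x - zQ Q)) / rQ Q ^ 2) + c Q) :=
                mul_le_mul_of_nonneg_right h5 (add_nonneg (mul_nonneg h₁ (hE0 Q x)) (hc0 Q))
            _ = _ := by ring
        · obtain ⟨hQ0, hQ1, hQ2, -⟩ := Finset.mem_filter.1 hQ
          exact Finset.mem_filter.2 ⟨hQ0, hQ1, hQ2⟩
    _ ≤ ∑ Q ∈ F', ENNReal.ofReal (W Q * (k₁ * (ε * A) + (k₃ + 1) * A * Λ ^ 2 * η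
          + k₂ * A * Λ ^ 2 * (rQ Q ^ 2 * |deriv (bbar w (zQ Q) (rQ Q)) t|))) := by
        refine (lintegral_finsetSum _ fun Q _ => ((hm Q).const_mul _).add
          (measurable_const.indicator measurableSet_closedBall)).trans_le
          (Finset.sum_le_sum fun Q hQ => ?_)
        simp only [Pi.add_apply]
        have hp := rQ_pos Q
        rw [lintegral_add_left ((hm Q).const_mul _), lintegral_const_mul _ (hm Q),
          lintegral_indicator_const measurableSet_closedBall]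
        refine (add_le_add (mul_le_mul_right (he1 _ _ hp) _)
          (mul_le_mul_right (hμ _ _ (by positivity)) _)).trans ?_
        rw [← ENNReal.ofReal_mul (mul_nonneg (hW0 Q) h₁),
          ← ENNReal.ofReal_mul (mul_nonneg (hW0 Q) (hc0 Q)), ← ENNReal.ofReal_add
            (by have := hW0 Q; positivity) (by have := hW0 Q; have := hc0 Q; positivity)]
        refine ENNReal.ofReal_le_ofReal ?_
        have h4 : rQ Q ≤ η := (hr' Q hQ).trans (by nlinarith)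
        have h5 : rQ Q ^ 2 ≤ η * (2 * -t) := by
          have h6 := pow_le_pow_left₀ hp.le (hr Q hQ) 2
          rw [mul_pow, Real.sq_sqrt ht0.le] at h6
          nlinarith [mul_pos hη0 ht0]
        have h6 : c Q * rQ Q ^ 2 ≤ (k₃ + 1) * η
            + k₂ * (rQ Q ^ 2 * |deriv (bbar w (zQ Q) (rQ Q)) t|) := by
          have e1 : c Q * rQ Q ^ 2 = k₂ * (rQ Q ^ 2 * |deriv (bbar w (zQ Q) (rQ Q)) t|)
              + k₃ * rQ Q + rQ Q ^ 2 / (2 * -t) := by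
            simp only [hc]
            field_simp
          have h7 : rQ Q ^ 2 / (2 * -t) ≤ η := (div_le_iff₀ (by positivity)).2 h5
          rw [e1]
          nlinarith
        calc _ = W Q * (k₁ * (ε * A) + A * Λ ^ 2 * (c Q * rQ Q ^ 2)) := by ring
          _ ≤ W Q * (k₁ * (ε * A) + A * Λ ^ 2 * ((k₃ + 1) * η
              + k₂ * (rQ Q ^ 2 * |deriv (bbar w (zQ Q) (rQ Q)) t|))) := by
              have := hW0 Q
              gcongr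
          _ = _ := by ring
    _ ≤ _ := by
        refine le_trans (Finset.sum_le_sum fun Q hQ => ?_) (Finset.sum_le_sum_of_subset
          (s := F') fun Q hQ => Finset.mem_filter.2 ⟨(Finset.mem_filter.1 hQ).1,
            (hr' Q hQ).trans (mul_le_mul_of_nonneg_right hr₀ hρ.le)⟩)
        rw [indicator_of_mem (show t ∈ ld w δ ρ Q from ⟨ht, (Finset.mem_filter.1 hQ).2.2⟩)]

lemma measurableSet_ld (hc : Cell) {a : ℝ} (ha : a ≤ -20) (hw : IsARFlow w (Ioo a 0) A)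
    (hρ : 0 < ρ) (hρ1 : ρ ≤ 1) {Q : P218UD.Lat} (hQ : rQ Q ≤ 1) : MeasurableSet (ld w δ ρ Q) := by
  have h3 : rQ Q ^ 2 ≤ 1 := pow_le_one₀ (rQ_pos Q).le hQ
  have h4 := measurableSet_loud (w := w) (δ := δ) (Q := Q) (J := Ioo (-2) 0) isOpen_Ioo
    fun t ht => hc.smooth w _ A hw _ _ _ (rQ_pos Q) fun s hs =>
      ⟨by nlinarith [hs.1, ht.1], by nlinarith [hs.2, ht.2]⟩
  have e : ld w δ ρ Q = loud w δ (Ioo (-2) 0) Q ∩ Icc (-ρ ^ 2) (-ρ ^ 2 / 2) :=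
    Set.ext fun t => ⟨fun h => ⟨⟨⟨by nlinarith [h.1.1], by nlinarith [h.1.2]⟩, h.2⟩,
      h.1⟩, fun h => ⟨h.2, h.1.2⟩⟩
  rw [e]
  exact h4.inter measurableSet_Icc

theorem window_loss {F : Finset P218UD.Lat} (hm : ∀ Q ∈ F, MeasurableSet (ld w δ ρ Q))
    (hρ : 0 < ρ) {ε₁ ε₂ k N : ℝ} (h₁ : 0 ≤ ε₁) (h₂ : 0 ≤ ε₂) (hk : 0 ≤ k) (hN : 0 ≤ N)
    (hc : ∑ Q ∈ F, ENNReal.ofReal (Real.exp (-‖zQ Q‖ / (2 * ρ)) / ρ ^ 2) * volume (ld w δ ρ Q)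
        ≤ ENNReal.ofReal N)
    (hs : ∑ Q ∈ F, ∫⁻ t in ld w δ ρ Q, ENNReal.ofReal (Real.exp (-‖zQ Q‖ / ρ) / ρ ^ 2 *
        (rQ Q ^ 2 * |deriv (bbar w (zQ Q) (rQ Q)) t|)) ≤ ENNReal.ofReal ε₂) :
    ∫⁻ t, ∑ Q ∈ F, (ld w δ ρ Q).indicator (fun t => ENNReal.ofReal
        (2 * (Real.exp (-‖zQ Q‖ / ρ) / ρ ^ 2) * (ε₁
          + k * (rQ Q ^ 2 * |deriv (bbar w (zQ Q) (rQ Q)) t|)))) t
      ≤ ENNReal.ofReal (2 * ε₁ * N + 2 * k * ε₂) := by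
  have hd : ∀ Q : P218UD.Lat, Measurable fun t => |deriv (bbar w (zQ Q) (rQ Q)) t| := fun Q =>
    (measurable_deriv _).abs
  rw [lintegral_finsetSum _ fun Q hQ => Measurable.indicator
    (((((hd Q).const_mul _).const_mul _).const_add _).const_mul _).ennreal_ofReal (hm Q hQ)]
  calc _ ≤ ∑ Q ∈ F, (ENNReal.ofReal (2 * ε₁) *
          (ENNReal.ofReal (Real.exp (-‖zQ Q‖ / (2 * ρ)) / ρ ^ 2) * volume (ld w δ ρ Q))
        + ENNReal.ofReal (2 * k) * ∫⁻ t in ld w δ ρ Q, ENNReal.ofReal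
          (Real.exp (-‖zQ Q‖ / ρ) / ρ ^ 2 * (rQ Q ^ 2 * |deriv (bbar w (zQ Q) (rQ Q)) t|))) := by
        refine Finset.sum_le_sum fun Q hQ => ?_
        rw [lintegral_indicator (hm Q hQ), ← mul_assoc, ← setLIntegral_const,
          ← lintegral_const_mul' _ _ ENNReal.ofReal_ne_top, ← lintegral_add_left measurable_const]
        refine lintegral_mono fun t => ?_
        rw [← ENNReal.ofReal_mul (by positivity), ← ENNReal.ofReal_mul (by positivity),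
          ← ENNReal.ofReal_add (by positivity) (by positivity)]
        refine ENNReal.ofReal_le_ofReal ?_
        have h3 : Real.exp (-‖zQ Q‖ / ρ) / ρ ^ 2 ≤ Real.exp (-‖zQ Q‖ / (2 * ρ)) / ρ ^ 2 := by
          refine div_le_div_of_nonneg_right (Real.exp_le_exp.2 ?_) (by positivity)
          rw [neg_div, neg_div, neg_le_neg_iff]
          exact div_le_div_of_nonneg_left (norm_nonneg _) hρ (by linarith)
        nlinarith [mul_le_mul_of_nonneg_left h3 h₁]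
    _ ≤ ENNReal.ofReal (2 * ε₁) * ENNReal.ofReal N + ENNReal.ofReal (2 * k) * ENNReal.ofReal ε₂ := by
        rw [Finset.sum_add_distrib, ← Finset.mul_sum, ← Finset.mul_sum]
        exact add_le_add (mul_le_mul_right hc _) (mul_le_mul_right hs _)
    _ = _ := by
        rw [← ENNReal.ofReal_mul (by positivity), ← ENNReal.ofReal_mul (by positivity),
          ← ENNReal.ofReal_add (by positivity) (by positivity)]

/-- dyadic decomposition of a time interval -/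
lemma lint_dyadic (f : ℝ → ℝ≥0∞) {t₀ : ℝ} {B : ℝ≥0∞}
    (h : ∀ i : ℕ, ∫⁻ t in Icc (t₀ / 2 ^ i) (t₀ / 2 ^ (i + 1)), f t ≤ B) (m : ℕ) :
    ∫⁻ t in Icc t₀ (t₀ / 2 ^ (m + 1)), f t ≤ (m + 1 : ℕ) * B := by
  induction m with
  | zero => simpa using h 0
  | succ m ih =>
    refine ((lintegral_mono_set (Icc_subset_Icc_union_Icc (b := t₀ / 2 ^ (m + 1)))).trans
      (lintegral_union_le _ _ _)).trans ((add_le_add ih (h (m + 1))).trans (le_of_eq ?_))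
    push_cast
    ring

lemma lint_Phi (hM : Mono) : ∃ C : ℝ, 0 ≤ C ∧ ∀ (μ : Measure E3) (A : ℝ), 0 ≤ A → AR μ A →
    ∀ t < 0, ∫⁻ x, ENNReal.ofReal (Phi t x) ∂μ ≤ ENNReal.ofReal (C * A) := by
  obtain ⟨C, hC⟩ := hM.tail
  refine ⟨|C|, abs_nonneg C, fun μ A hA hμ t ht => ?_⟩
  have h0 : 0 < -t := by linarith
  obtain ⟨h1, h2⟩ := hC μ A hA hμ 0 √(-t) (Real.sqrt_pos.2 h0)
  simp only [Real.sq_sqrt h0.le, sub_zero] at h1 h2
  calc _ ≤ ∫⁻ x, ENNReal.ofReal (Real.exp (-‖x‖ ^ 2 / (8 * -t)) / -t) ∂μ := by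
        refine lintegral_mono fun x => ENNReal.ofReal_le_ofReal ?_
        refine div_le_div₀ (Real.exp_pos _).le (Real.exp_le_exp.2 ?_) h0
          (by nlinarith [Real.pi_gt_three])
        rw [neg_div, neg_div, neg_le_neg_iff]
        exact div_le_div_of_nonneg_left (by positivity) (by positivity) (by linarith)
    _ = ENNReal.ofReal (∫ x, Real.exp (-‖x‖ ^ 2 / (8 * -t)) / -t ∂μ) :=
        (ofReal_integral_eq_lintegral_ofReal (h1.div_const _)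
          (Eventually.of_forall fun x => by positivity)).symm
    _ ≤ _ := by
        refine ENNReal.ofReal_le_ofReal ?_
        rw [integral_div, div_le_iff₀ h0]
        exact h2.trans (by gcongr; exact le_abs_self C)

theorem total_loss (hC : Calc) (hc : Cell) (hT : Tan) {a C : ℝ} (ha : a ≤ -20)
    (hw : IsGood w (Ioo a 0) A C) (hδ : 0 < δ) (hε : 0 < ε) (h₁ : 0 ≤ k₁) :
    ∃ ε' > (0 : ℝ), ∀ (e : E3 → ℝ) (Λ k₂ k₃ : ℝ), Measurable e → (∀ x, 0 ≤ e x) → 1 ≤ Λ →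
      0 ≤ k₂ → 0 ≤ k₃ → (∀ (μ : Measure E3) (A : ℝ), 0 ≤ A → AR μ A → ∀ (z : E3) (r : ℝ), 0 < r →
        ∫⁻ x, ENNReal.ofReal (e (r⁻¹ • (x - z)) / r ^ 2) ∂μ ≤ ENNReal.ofReal (ε' * A)) →
      ∃ b : ℝ, ∀ a₀ ≤ b, ∀ᶠ t₀ in 𝓝[<] (0 : ℝ), ∀ F : Finset P218UD.Lat, (∀ Q ∈ F, ‖zQ Q‖ < 3) →
        ∀ m : ℕ, ∫⁻ t in Icc t₀ (t₀ / 2 ^ (m + 1)), ∫⁻ x, ENNReal.ofReal
          (Phi t x * ∑ Q ∈ act w δ Λ a₀ F t x, hQ w e k₁ k₂ k₃ Q t x) ∂(ar (w t))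
          ≤ (m + 1 : ℕ) * ENNReal.ofReal ε := by
  classical
  have hA : 0 ≤ A := zero_le_one.trans hw.one_le
  obtain ⟨r₁, hr₁, N, hN0, hN⟩ := win_count hc A C hδ
  refine ⟨ε / (8 * (k₁ * A * N + 1)), by positivity, fun e Λ k₂ k₃ he he0 hΛ h₂ h₃ he1 => ?_⟩
  obtain ⟨r₂, hr₂, ρ₀, hρ₀, hS⟩ := win_small hC hc hT ha hw hδ
    (by positivity : 0 < ε / (8 * (k₂ * A * Λ ^ 2 + 1)))
  set r₀ := min 1 (min r₁ r₂) with hr₀
  set η₀ := min (1 / Λ) (min r₀ (ε / (8 * ((k₃ + 1) * A * Λ ^ 2 * N + 1)))) with hη₀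
  have hη₀0 : 0 < η₀ := by positivity
  refine ⟨Real.log η₀ - 4, fun a₀ ha₀ => ?_⟩
  have hη : Real.exp (a₀ + 4) ≤ η₀ := (Real.le_log_iff_exp_le hη₀0).1 (by linarith)
  have hη1 : Λ * Real.exp (a₀ + 4) ≤ 1 := by
    have := (le_div_iff₀ (by positivity)).1 (hη.trans (min_le_left _ _))
    linarith
  have hη2 : Real.exp (a₀ + 4) ≤ r₀ := hη.trans ((min_le_right _ _).trans (min_le_left _ _))
  have hη3 := (le_div_iff₀ (by positivity)).1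
    (hη.trans ((min_le_right _ _).trans (min_le_right _ _)))
  have hm0 : 0 < min 1 ρ₀ := by positivity
  filter_upwards [Ioo_mem_nhdsLT (by nlinarith : -min 1 ρ₀ ^ 2 < 0)] with t₀ ht₀ F hF m
  refine lint_dyadic _ (fun i => ?_) m
  have h2i : (1 : ℝ) ≤ 2 ^ i := one_le_pow₀ one_le_two
  have hp : 0 < -t₀ / 2 ^ i := div_pos (by linarith [ht₀.2]) (by positivity)
  obtain ⟨ρ, hρ, hρ2⟩ : ∃ ρ : ℝ, 0 < ρ ∧ ρ ^ 2 = -t₀ / 2 ^ i :=
    ⟨√(-t₀ / 2 ^ i), Real.sqrt_pos.2 hp, Real.sq_sqrt hp.le⟩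
  have hρ3 : ρ ≤ min 1 ρ₀ := by
    refine (pow_le_pow_iff_left₀ hρ.le hm0.le two_ne_zero).1 ?_
    rw [hρ2]
    exact (div_le_self (by linarith [ht₀.2]) h2i).trans (by linarith [ht₀.1])
  have hρ1 : ρ ≤ 1 := hρ3.trans (min_le_left _ _)
  have e1 : t₀ / 2 ^ i = -ρ ^ 2 := by rw [hρ2]; ring
  have e2 : t₀ / 2 ^ (i + 1) = -ρ ^ 2 / 2 := by rw [hρ2]; ring
  rw [e1, e2]
  have hF' : ∀ r, r₀ ≤ r → ∀ Q ∈ F.filter fun Q => rQ Q ≤ r₀ * ρ, ‖zQ Q‖ < 3 ∧ rQ Q ≤ r * ρ :=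
    fun r hr Q hQ => ⟨hF Q (Finset.mem_filter.1 hQ).1,
      (Finset.mem_filter.1 hQ).2.trans (mul_le_mul_of_nonneg_right hr hρ.le)⟩
  refine (setLIntegral_mono' measurableSet_Icc fun t ht => slice_loss
    (hw.ratio t ⟨by nlinarith [ht.1], by nlinarith [ht.2]⟩) hA he he0 (by positivity)
    (he1 _ A hA (hw.ratio t ⟨by nlinarith [ht.1], by nlinarith [ht.2]⟩)) hρ hρ1 ht hΛ hη1 hη2
    h₁ h₂ h₃ F).trans ((setLIntegral_le_lintegral _ _).trans ((window_loss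
      (fun Q hQ => measurableSet_ld hc ha hw.toIsARFlow hρ hρ1
        ((hF' 1 (min_le_left _ _) Q hQ).2.trans (by linarith))) hρ (by positivity)
      (by positivity) (by positivity) hN0
      (hN w a ha hw ρ hρ hρ1 _ (hF' _ ((min_le_right _ _).trans (min_le_left _ _))))
      (hS ρ hρ (hρ3.trans (min_le_right _ _)) _
        (hF' _ ((min_le_right _ _).trans (min_le_right _ _))))).trans
          (ENNReal.ofReal_le_ofReal ?_)))
  have key : ∀ u : ℝ, 0 ≤ u → u * (ε / (8 * (u + 1))) ≤ ε / 8 := fun u hu => by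
    rw [← mul_div_assoc, div_le_div_iff₀ (by positivity) (by positivity)]
    nlinarith
  have k1 := key (k₁ * A * N) (by positivity)
  have k2 := key (k₂ * A * Λ ^ 2) (by positivity)
  have k3 := Real.exp_pos (a₀ + 4)
  nlinarith

end Vale.Agent.P218UM
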