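import Vale.Agent.P218UM.PW
import Vale.Agent.P218UD.Lat
import Vale.Agent.P218UD.Lint

/-! The test function of the weighted estimate. -/

open MeasureTheory Set Filter Topology Metric
open scoped ENNReal NNReal RealInnerProductSpace ContDiff

namespace Vale.Agent.P218UM

open Vale.Agent.P218UA
open Vale.Agent.P218.H63 (lap hessSq)

/-- a cutoff in time which rises on `[t₀, t₀ / 2]` -/
noncomputable def rise (t₀ t : ℝ) : ℝ := Real.smoothTransition ((t - t₀) / (-t₀ / 2))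

/-- a cutoff in time which falls on `[t₁, t₁ / 2]` -/
noncomputable def fall (t₁ t : ℝ) : ℝ := Real.smoothTransition ((t₁ / 2 - t) / (-t₁ / 2))

/-- the test function -/
noncomputable def psi (t₀ t₁ t : ℝ) (x : E3) : ℝ :=
  rise t₀ t * fall t₁ t * (Phi t x * Real.smoothTransition (4 - ‖x‖ ^ 2))

variable {t₀ t₁ t : ℝ} {x : E3}

lemma contDiff_rise : ContDiff ℝ 2 (rise t₀) :=
  Real.smoothTransition.contDiff.comp (by fun_prop)

lemma contDiff_fall : ContDiff ℝ 2 (fall t₁) :=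
  Real.smoothTransition.contDiff.comp (by fun_prop)

lemma rise_zero (h₀ : t₀ < 0) (h : t ≤ t₀) : rise t₀ t = 0 :=
  Real.smoothTransition.zero_of_nonpos
    (div_nonpos_of_nonpos_of_nonneg (by linarith) (by linarith))

lemma rise_one (h₀ : t₀ < 0) (h : t₀ / 2 ≤ t) : rise t₀ t = 1 :=
  Real.smoothTransition.one_of_one_le ((one_le_div (by linarith)).2 (by linarith))

lemma fall_zero (h₁ : t₁ < 0) (h : t₁ / 2 ≤ t) : fall t₁ t = 0 :=
  Real.smoothTransition.zero_of_nonpos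
    (div_nonpos_of_nonpos_of_nonneg (by linarith) (by linarith))

lemma fall_one (h₁ : t₁ < 0) (h : t ≤ t₁) : fall t₁ t = 1 :=
  Real.smoothTransition.one_of_one_le ((one_le_div (by linarith)).2 (by linarith))

lemma deriv_fall_nonpos (h₁ : t₁ < 0) : deriv (fall t₁) t ≤ 0 := by
  refine Antitone.deriv_nonpos fun a b hab => Real.smoothTransition.monotone ?_
  exact div_le_div_of_nonneg_right (by linarith) (by linarith)

lemma deriv_chi_le (h₀ : t₀ < 0) : ∃ B : ℝ, 0 < B ∧ ∀ t₁ < 0, ∀ t,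
    deriv (fun s => rise t₀ s * fall t₁ s) t ≤ B ∧
      (t₀ / 2 < t → deriv (fun s => rise t₀ s * fall t₁ s) t ≤ 0) := by
  obtain ⟨B, hB, hB'⟩ := P218UD.exists_deriv_bound (contDiff_rise.of_le one_le_two)
    (fun s => rise_zero h₀) fun s => rise_one h₀
  refine ⟨B, hB, fun t₁ h₁ t => ?_⟩
  rw [deriv_fun_mul (contDiff_rise.differentiable two_ne_zero t)
    (contDiff_fall.differentiable two_ne_zero t)]
  have h2 : rise t₀ t * deriv (fall t₁) t ≤ 0 :=
    mul_nonpos_of_nonneg_of_nonpos (Real.smoothTransition.nonneg _) (deriv_fall_nonpos h₁)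
  have h3 : 0 ≤ fall t₁ t := Real.smoothTransition.nonneg _
  have h4 : fall t₁ t ≤ 1 := Real.smoothTransition.le_one _
  refine ⟨by nlinarith [le_abs_self (deriv (rise t₀) t), hB' t], fun ht => ?_⟩
  have h5 : rise t₀ =ᶠ[𝓝 t] fun _ => 1 := by
    filter_upwards [lt_mem_nhds ht] with s hs using rise_one h₀ hs.le
  rw [h5.deriv_eq, deriv_const]
  linarith

lemma psi_eq_zero (h₀ : t₀ < 0) (h₁ : t₁ < 0) {p : ℝ × E3}
    (h : p ∉ Icc t₀ (t₁ / 2) ×ˢ closedBall (0 : E3) 2) : psi t₀ t₁ p.1 p.2 = 0 := by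
  by_contra h0
  refine h ⟨⟨?_, ?_⟩, ?_⟩
  · by_contra h2
    exact h0 (by rw [psi, rise_zero h₀ (not_le.1 h2).le, zero_mul, zero_mul])
  · by_contra h2
    exact h0 (by rw [psi, fall_zero h₁ (not_le.1 h2).le, mul_zero, zero_mul])
  · by_contra h2
    rw [mem_closedBall_zero_iff, not_le] at h2
    exact h0 (by rw [psi, Real.smoothTransition.zero_of_nonpos (x := 4 - ‖p.2‖ ^ 2)
      (by nlinarith), mul_zero, mul_zero])

lemma tsupport_psi (h₀ : t₀ < 0) (h₁ : t₁ < 0) :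
    tsupport (fun p : ℝ × E3 => psi t₀ t₁ p.1 p.2) ⊆ Icc t₀ (t₁ / 2) ×ˢ closedBall (0 : E3) 2 :=
  closure_minimal (fun _ hp => by_contra fun h => hp (psi_eq_zero h₀ h₁ h))
    (isClosed_Icc.prod isClosed_closedBall)

lemma hasCompactSupport_psi (h₀ : t₀ < 0) (h₁ : t₁ < 0) :
    HasCompactSupport fun p : ℝ × E3 => psi t₀ t₁ p.1 p.2 :=
  (isCompact_Icc.prod (isCompact_closedBall _ _)).of_isClosed_subset (isClosed_tsupport _)
    (tsupport_psi h₀ h₁)

lemma contDiff_psi (h₁ : t₁ < 0) : ContDiff ℝ 2 fun p : ℝ × E3 => psi t₀ t₁ p.1 p.2 := by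
  refine contDiff_iff_contDiffAt.2 fun p => ?_
  rcases lt_or_ge p.1 0 with h | h
  · exact ((contDiff_rise.comp contDiff_fst).mul (contDiff_fall.comp contDiff_fst)).contDiffAt.mul
      ((contDiffAt_Phi h p.2).mul (Real.smoothTransition.contDiff.comp
        (contDiff_const.sub ((contDiff_norm_sq ℝ).comp contDiff_snd))).contDiffAt)
  · refine (contDiffAt_const (c := (0 : ℝ))).congr_of_eventuallyEq ?_
    filter_upwards [continuousAt_fst.eventually (lt_mem_nhds (by linarith : t₁ / 2 < p.1))]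
      with q hq
    rw [psi, fall_zero h₁ hq.le, mul_zero, zero_mul]

lemma psi_nonneg (h₁ : t₁ < 0) (t : ℝ) (x : E3) : 0 ≤ psi t₀ t₁ t x := by
  rcases lt_or_ge t 0 with h | h
  · exact mul_nonneg (mul_nonneg (Real.smoothTransition.nonneg _) (Real.smoothTransition.nonneg _))
      (mul_nonneg (Phi_pos h x).le (Real.smoothTransition.nonneg _))
  · rw [psi, fall_zero h₁ (by linarith), mul_zero, zero_mul]

lemma psi_le (ht : t < 0) (x : E3) : psi t₀ t₁ t x ≤ Phi t x := by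
  have h1 : rise t₀ t * fall t₁ t ≤ 1 := mul_le_one₀ (Real.smoothTransition.le_one _)
    (Real.smoothTransition.nonneg _) (Real.smoothTransition.le_one _)
  have h2 := Phi_pos ht x
  exact (mul_le_of_le_one_left (mul_nonneg h2.le (Real.smoothTransition.nonneg _)) h1).trans
    (mul_le_of_le_one_right h2.le (Real.smoothTransition.le_one _))

lemma psi_eq (h₀ : t₀ < 0) (h₁ : t₁ < 0) (ht : t ∈ Icc (t₀ / 2) t₁) (hx : ‖x‖ ^ 2 ≤ 3) :
    psi t₀ t₁ t x = Phi t x := by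
  rw [psi, rise_one h₀ ht.1, fall_one h₁ ht.2,
    Real.smoothTransition.one_of_one_le (x := 4 - ‖x‖ ^ 2) (by linarith)]
  ring

lemma adj_zero (w : ℝ → E3 → ℝ) (t : ℝ) (x : E3) : adj w (fun _ _ => 0) t x = 0 := by
  have h : gradient (fun _ : E3 => (0 : ℝ)) = fun _ => 0 := funext fun y => gradient_const y 0
  simp [adj, hs, trT, h]

lemma adj_psi_zero (w : ℝ → E3 → ℝ) (h₀ : t₀ < 0) (h₁ : t₁ < 0) {p : ℝ × E3}
    (h : p ∉ Icc t₀ (t₁ / 2) ×ˢ closedBall (0 : E3) 2) : adj w (psi t₀ t₁) p.1 p.2 = 0 := by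
  rw [adj_congr w (g := fun _ _ => 0), adj_zero]
  filter_upwards [(isClosed_Icc.prod isClosed_closedBall).isOpen_compl.mem_nhds h] with q hq
    using psi_eq_zero h₀ h₁ hq

lemma adj_psi_le (w : ℝ → E3 → ℝ) (ht : t < 0) (hx : ‖x‖ ^ 2 < 3)
    (hn : ‖gradient (w t) x‖ = 1) :
    adj w (psi t₀ t₁) t x ≤ deriv (fun s => rise t₀ s * fall t₁ s) t * Phi t x := by
  rw [adj_congr w (g := fun s y => rise t₀ s * fall t₁ s * Phi s y), adj_time_mul w
    ((contDiff_rise.mul contDiff_fall).differentiable two_ne_zero t) (contDiffAt_Phi ht x),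
    adj_Phi w ht hn]
  · have h1 : 0 ≤ rise t₀ t * fall t₁ t :=
      mul_nonneg (Real.smoothTransition.nonneg _) (Real.smoothTransition.nonneg _)
    nlinarith [mul_nonneg h1 (mul_nonneg
      (sq_nonneg (lap (w t) x - ⟪x, gradient (w t) x⟫ / (2 * -t))) (Phi_pos ht x).le)]
  · filter_upwards [(by fun_prop : ContinuousAt (fun p : ℝ × E3 => ‖p.2‖ ^ 2) (t, x)).eventually
      (gt_mem_nhds hx)] with q hq
    rw [psi, Real.smoothTransition.one_of_one_le (x := 4 - ‖q.2‖ ^ 2) (by linarith), mul_one]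

lemma lev_le (a₀ : ℝ) (ht : -1 ≤ t) (ht0 : t < 0) : lev a₀ t ≤ a₀ := by
  have := Real.log_nonpos (x := -t) (by linarith) (by linarith)
  rw [lev]
  linarith

lemma integral_gam_le {γ : ℝ → E3 → ℝ → ℝ} {a₀ y₀ : ℝ} (ht : -1 / 4 ≤ t) (ht0 : t < 0)
    (h : ∀ y, 0 ≤ γ t x y ∧ γ t x y ≤ 1) {S : Set ℝ} (hS : MeasurableSet S)
    (h0 : ∀ y ∈ S, y₀ < y) :
    0 ≤ ∫ y in S, gam γ a₀ t x y ∧ ∫ y in S, gam γ a₀ t x y ≤ |a₀ - y₀| := by
  refine ⟨integral_nonneg fun y => gam_nonneg (h y).1,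
    P218UD.int_le_of_lint (abs_nonneg _) ?_⟩
  calc _ ≤ ∫⁻ y in S, (Icc y₀ a₀).indicator 1 y := by
        refine setLIntegral_mono' hS fun y hy => ?_
        by_cases h1 : y ≤ a₀
        · rw [indicator_of_mem (show y ∈ Icc y₀ a₀ from ⟨(h0 y hy).le, h1⟩)]
          exact ENNReal.ofReal_le_one.2 (gam_le_one ht (h y).2)
        · rw [gam_eq_zero ((lev_le a₀ (by linarith) ht0).trans (not_le.1 h1).le),
            ENNReal.ofReal_zero]
          exact zero_le
    _ ≤ ∫⁻ y, (Icc y₀ a₀).indicator 1 y := setLIntegral_le_lintegral _ _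
    _ ≤ _ := by
        rw [lintegral_indicator_one measurableSet_Icc, Real.volume_Icc]
        exact ENNReal.ofReal_le_ofReal (le_abs_self _)

end Vale.Agent.P218UM
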