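import Vale.Agent.P218UM.Loss
import Vale.Agent.P218UM.Psi
import Vale.Agent.P218UM.Iface
import Vale.Agent.P218UD.WtR

/-! The weighted estimate. -/

open MeasureTheory Set Filter Topology Metric
open scoped ENNReal NNReal RealInnerProductSpace ContDiff

namespace Vale.Agent.P218UM

open Vale.Agent.P218UA Vale.Agent.P218UD
open Vale.Agent.P218.H63 (lap hessSq)

variable {w : ℝ → E3 → ℝ} {e : E3 → ℝ} {γ : ℝ → E3 → ℝ → ℝ} {δ Λ a₀ C₀ C₁ t : ℝ} {x : E3}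
  {F : Finset P218UD.Lat}

lemma act_subset : act w δ Λ a₀ F t x ⊆ F := Finset.filter_subset _ _

lemma mem_act (hδ : 0 < δ) : ∀ Q ∈ F, (Q.1 : ℝ) < lev a₀ t + 4 → bQ w δ Q t ≠ 0 →
    ‖x - zQ Q‖ < Λ * rQ Q → Q ∈ act w (δ / 2) Λ a₀ F t x := fun _ hQ h1 h2 h3 =>
  Finset.mem_filter.2 ⟨hQ, h1, le_of_bQ_ne hδ h2, h3⟩

lemma hQ_nonneg (ht : t < 0) (he : ∀ x, 0 ≤ e x) {k₁ k₂ k₃ : ℝ} (h₁ : 0 ≤ k₁) (h₂ : 0 ≤ k₂)
    (h₃ : 0 ≤ k₃) (Q : P218UD.Lat) : 0 ≤ hQ w e k₁ k₂ k₃ Q t x := by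
  have h4 := rQ_pos Q
  have h5 : 0 < -t := by linarith
  have h6 := he ((rQ Q)⁻¹ • (x - zQ Q))
  unfold hQ
  positivity

lemma pw_bracket (hδ : 0 < δ) (ht : -1 / 4 ≤ t) (ht0 : t < 0) (hn : ‖gradient (w t) x‖ = 1)
    (he : ∀ x, 0 ≤ e x) (hC₁ : 0 ≤ C₁)
    (hs : ∀ Q ∈ F, ContDiffAt ℝ ∞ (bbar w (zQ Q) (rQ Q)) t)
    (h : ∀ y, ContDiffAt ℝ 2 (fun p : ℝ × E3 × ℝ => γ p.1 p.2.1 p.2.2) (t, x, y))
    (h0 : ∀ y, 0 ≤ γ t x y)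
    (hone : ∀ y, (∀ Q ∈ F, (Q.1 : ℝ) < y + 4 → bQ w δ Q t = 0 ∨ Λ * rQ Q ≤ ‖x - zQ Q‖) →
      γ t x y = 1)
    (h1 : ∫⁻ y in Iic (lev a₀ t), ENNReal.ofReal (heat w (fun s z => γ s z y) t x)
      ≤ ENNReal.ofReal (∑ Q ∈ act w (δ / 2) Λ a₀ F t x,
        (e ((rQ Q)⁻¹ • (x - zQ Q)) / rQ Q ^ 2 + C₁ * |deriv (bQ w δ Q) t|)))
    (h3 : ∫⁻ y in Iic (lev a₀ t), ‖gradient (fun z => γ t z y) x‖ₑ
      ≤ ENNReal.ofReal (∑ Q ∈ act w (δ / 2) Λ a₀ F t x, C₁ / rQ Q))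
    {S : Set ℝ} (hS : MeasurableSet S) {y₀ : ℝ} (hy₀ : ∀ y ∈ S, y₀ < y)
    (hup : ∀ y ∈ S, ∀ y', y ≤ y' → y' ∈ S) {X Y : ℝ}
    (hX : X = (∫ y in S, heat w (fun s z => gam γ a₀ s z y) t x) + C₀ *
      (2 * ∑ Q ∈ act w (δ / 2) Λ a₀ F t x, e ((rQ Q)⁻¹ • (x - zQ Q)) / rQ Q ^ 2 + 36))
    (hY : Y = 36 * C₀ + ∑ Q ∈ act w (δ / 2) Λ a₀ F t x,
      hQ w e (1 + 2 * C₀) (C₁ * (CXi / δ)) (20 * C₁) Q t x) :
    X ≤ Y ∧ (lev a₀ t - 1 ∈ S → X + ek t x / (2 * -t) ≤ Y) := by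
  have hp : 0 < -t := by linarith
  set G := act w (δ / 2) Λ a₀ F t x with hG
  have hE : ∀ Q : P218UD.Lat, 0 ≤ e ((rQ Q)⁻¹ • (x - zQ Q)) / rQ Q ^ 2 := fun Q =>
    div_nonneg (he _) (sq_nonneg _)
  obtain ⟨k1, k2⟩ := integral_heat_gam_le w ht ht0 hn h h0 hS hy₀
    (Finset.sum_nonneg fun Q _ => add_nonneg (hE Q) (mul_nonneg hC₁ (abs_nonneg _)))
    (Finset.sum_nonneg fun Q _ => div_nonneg hC₁ (rQ_pos Q).le) h1 h3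
  have key : ∑ Q ∈ G, (e ((rQ Q)⁻¹ • (x - zQ Q)) / rQ Q ^ 2 + C₁ * |deriv (bQ w δ Q) t|)
      + 20 * ∑ Q ∈ G, C₁ / rQ Q + C₀ * (2 * ∑ Q ∈ G, e ((rQ Q)⁻¹ • (x - zQ Q)) / rQ Q ^ 2)
      + ∑ Q ∈ G, 1 / (2 * -t)
      ≤ ∑ Q ∈ G, hQ w e (1 + 2 * C₀) (C₁ * (CXi / δ)) (20 * C₁) Q t x := by
    simp only [Finset.mul_sum, ← Finset.sum_add_distrib]
    refine Finset.sum_le_sum fun Q hQ' => ?_
    have h4 := mul_le_mul_of_nonneg_left (abs_deriv_bQ hδ (hs Q (act_subset hQ'))) hC₁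
    have e1 : 20 * C₁ / rQ Q = 20 * (C₁ / rQ Q) := by ring
    rw [hQ, e1]
    linarith
  have h5 : 0 ≤ ∑ Q ∈ G, 1 / (2 * -t) := Finset.sum_nonneg fun Q _ => by positivity
  refine ⟨by linarith, fun hl => ?_⟩
  rcases G.eq_empty_or_nonempty with hG0 | ⟨Q₀, hQ₀⟩
  · have h6 := k2 fun y hy => ⟨hup _ hl y hy.1, hone y fun Q hQ' hy' => by
      by_contra h7
      rw [not_or, not_le] at h7
      exact Finset.eq_empty_iff_forall_notMem.1 hG0 Q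
        (mem_act hδ Q hQ' (by linarith [hy.2]) h7.1 h7.2)⟩
    linarith
  · have h6 : 1 / (2 * -t) ≤ ∑ Q ∈ G, 1 / (2 * -t) :=
      Finset.single_le_sum (f := fun _ => 1 / (2 * -t)) (fun Q _ => by positivity) hQ₀
    have h7 : ek t x / (2 * -t) ≤ 1 / (2 * -t) :=
      div_le_div_of_nonneg_right (ek_le_one ht x) (by positivity)
    linarith

lemma gain_le {R : ℝ} (ht0 : t < 0) (hR : R ^ 2 * -t ≤ 1 / 2) (hx : ‖x‖ ≤ R * √(-t)) :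
    ‖x‖ ^ 2 ≤ 1 / 2 ∧
      Real.exp (-R ^ 2 / 4) / 2048 * (1 / t ^ 2) ≤ Phi t x * (ek t x / (2 * -t)) := by
  have hp : 0 < -t := by linarith
  have h1 := pow_le_pow_left₀ (norm_nonneg x) hx 2
  rw [mul_pow, Real.sq_sqrt hp.le] at h1
  refine ⟨h1.trans hR, ?_⟩
  have h2 : Real.exp (-R ^ 2 / 4) / (16 * -t) ≤ Phi t x := by
    refine div_le_div₀ (Real.exp_pos _).le (Real.exp_le_exp.2 ?_) (by positivity)
      (by nlinarith [Real.pi_le_four])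
    rw [div_le_div_iff₀ (by positivity) (by positivity)]
    nlinarith
  have h3 : 1 / 64 / (2 * -t) ≤ ek t x / (2 * -t) :=
    div_le_div_of_nonneg_right (ek_ge ht0.le (h1.trans hR)) (by positivity)
  refine le_trans (le_of_eq ?_) (mul_le_mul h2 h3 (by positivity) (Phi_pos ht0 x).le)
  field_simp
  ring

lemma lint_stm_le {I : Set ℝ} (f : ℝ × E3 → ℝ≥0∞) :
    ∫⁻ p, f p ∂(stm w I) ≤ ∫⁻ t in I, ∫⁻ x, f (t, x) ∂(ar (w t)) :=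
  (Measure.lintegral_bind_le _ _ _).trans (lintegral_mono fun _ => lintegral_map_le _ _)

lemma closure_gam {p : ℝ × E3 × ℝ}
    (h : p ∈ closure {p' : ℝ × E3 × ℝ | p'.1 ∈ Ioo (-1 / 4 : ℝ) 0 ∧
      gam γ a₀ p'.1 p'.2.1 p'.2.2 ≠ 0}) : ‖p.2.1‖ ^ 2 ≤ 2 ∧ p.2.2 ≤ a₀ := by
  have c1 : IsClosed {p : ℝ × E3 × ℝ | ‖p.2.1‖ ^ 2 ≤ 2} := isClosed_le (by fun_prop) (by fun_prop)
  have c2 : IsClosed {p : ℝ × E3 × ℝ | p.2.2 ≤ a₀} := isClosed_le (by fun_prop) (by fun_prop)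
  refine closure_minimal (t := {p : ℝ × E3 × ℝ | ‖p.2.1‖ ^ 2 ≤ 2 ∧ p.2.2 ≤ a₀})
    (fun q hq => ⟨?_, ?_⟩) (c1.inter c2) h
  · by_contra h1
    exact hq.2 (by rw [gam, ek_eq_zero hq.1.1.le (not_le.1 h1).le, mul_zero, mul_zero])
  · by_contra h1
    exact hq.2 (gam_eq_zero ((lev_le a₀ (by linarith [hq.1.1]) hq.1.2).trans (not_le.1 h1).le))

lemma exists_q (he : Measurable e) (he0 : ∀ x, 0 ≤ e x ∧ e x ≤ C₁) {J : Set ℝ} (hJ : IsOpen J)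
    (hs : ∀ Q ∈ F, ∀ t ∈ J, ContDiffAt ℝ ∞ (bbar w (zQ Q) (rQ Q)) t) :
    ∃ q : ℝ × E3 → ℝ, Measurable q ∧ (∃ B, ∀ p, 0 ≤ q p ∧ q p ≤ B) ∧ ∀ p : ℝ × E3, p.1 ∈ J →
      q p = 2 * ∑ Q ∈ act w δ Λ a₀ F p.1 p.2, e ((rQ Q)⁻¹ • (p.2 - zQ Q)) / rQ Q ^ 2 + 36 := by
  classical
  set S : P218UD.Lat → Set (ℝ × E3) := fun Q => {p | p.1 ∈ loud w δ J Q ∧
    (Q.1 : ℝ) < lev a₀ p.1 + 4 ∧ ‖p.2 - zQ Q‖ < Λ * rQ Q} with hS
  have hE : ∀ (Q : P218UD.Lat) (x : E3), 0 ≤ e ((rQ Q)⁻¹ • (x - zQ Q)) / rQ Q ^ 2 := fun Q x =>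
    div_nonneg (he0 _).1 (sq_nonneg _)
  refine ⟨fun p => 2 * ∑ Q ∈ F, (S Q).indicator
    (fun p => e ((rQ Q)⁻¹ • (p.2 - zQ Q)) / rQ Q ^ 2) p + 36, ?_,
    ⟨2 * ∑ Q ∈ F, C₁ / rQ Q ^ 2 + 36, fun p => ⟨?_, ?_⟩⟩, fun p hp => ?_⟩
  · refine ((Finset.measurable_fun_sum _ fun Q hQ' => Measurable.indicator
      ((he.comp (by fun_prop)).div_const _) ?_).const_mul _).add_const _
    have h1 : MeasurableSet {p : ℝ × E3 | (Q.1 : ℝ) < lev a₀ p.1 + 4} :=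
      measurableSet_lt measurable_const (((measurable_lev a₀).comp measurable_fst).add_const 4)
    have h2 : MeasurableSet {p : ℝ × E3 | ‖p.2 - zQ Q‖ < Λ * rQ Q} :=
      measurableSet_lt (by fun_prop) measurable_const
    exact (measurable_fst (measurableSet_loud hJ (hs Q hQ'))).inter (h1.inter h2)
  · have := Finset.sum_nonneg (s := F) fun Q _ => indicator_nonneg (s := S Q)
      (f := fun p : ℝ × E3 => e ((rQ Q)⁻¹ • (p.2 - zQ Q)) / rQ Q ^ 2) (fun p _ => hE Q p.2) p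
    linarith
  · have := Finset.sum_le_sum (s := F) fun Q _ => (indicator_le_self' (s := S Q)
      (f := fun p : ℝ × E3 => e ((rQ Q)⁻¹ • (p.2 - zQ Q)) / rQ Q ^ 2)
        (fun p _ => hE Q p.2) p).trans (div_le_div_of_nonneg_right (he0 _).2 (sq_nonneg _))
    linarith
  · unfold act
    simp only [Finset.sum_filter]
    congr 2
    refine Finset.sum_congr rfl fun Q _ => ?_
    rw [indicator_apply]
    exact if_congr ⟨fun h => ⟨h.2.1, h.1.2, h.2.2⟩, fun h => ⟨⟨hp, h.2.1⟩, h.1, h.2.2⟩⟩ rfl rfl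

lemma integrable_psi_q (hC : Calc) {I : Set ℝ} (hw : IsFlow w I) {t₀ t₁ : ℝ} (h₀ : t₀ < 0)
    (h₁ : t₁ < 0) (hI : Icc t₀ (t₁ / 2) ⊆ I) (hC₀ : 0 ≤ C₀) {q : ℝ × E3 → ℝ} (hq : Measurable q)
    (hqB : ∃ B, ∀ p, 0 ≤ q p ∧ q p ≤ B) :
    Integrable (fun p : ℝ × E3 => psi t₀ t₁ p.1 p.2 * (C₀ * q p)) (stm w I) := by
  obtain ⟨Bq, hBq⟩ := hqB
  obtain ⟨Bp, hBp⟩ := (contDiff_psi (t₀ := t₀) h₁).continuous.bounded_above_of_compact_support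
    (hasCompactSupport_psi h₀ h₁)
  refine (integrableOn_iff_integrable_of_support_subset
    (s := Icc t₀ (t₁ / 2) ×ˢ closedBall (0 : E3) 2) fun p hp => by_contra fun h =>
      hp (by simp only [psi_eq_zero h₀ h₁ h, zero_mul])).1 ?_
  refine Measure.integrableOn_of_bounded (M := Bp * (C₀ * Bq)) (hC.stm_fin w _ hw _
    (isCompact_Icc.prod (isCompact_closedBall _ _)) fun p hp => ⟨hI hp.1, trivial⟩).ne
    ((contDiff_psi h₁).continuous.measurable.mul (hq.const_mul _)).aestronglyMeasurable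
    (Eventually.of_forall fun p => ?_)
  rw [norm_mul, Real.norm_of_nonneg (mul_nonneg hC₀ (hBq p).1)]
  exact mul_le_mul (hBp p) (mul_le_mul_of_nonneg_left (hBq p).2 hC₀)
    (mul_nonneg hC₀ (hBq p).1) ((norm_nonneg _).trans (hBp p))

lemma gg_adj_le {t₀ t₁ B y₀ y₀' : ℝ} (ht : t ∈ Ioo (-1 / 4 : ℝ) 0)
    (hn : ‖gradient (w t) x‖ = 1) (h : ∀ y, 0 ≤ γ t x y ∧ γ t x y ≤ 1) {S : Set ℝ}
    (hS : MeasurableSet S) (h0 : ∀ y ∈ S, y₀ < y) (h0' : t ≤ t₀ / 2 → ∀ y ∈ S, y₀' < y)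
    (hB : 0 ≤ B) (hB' : deriv (fun s => rise t₀ s * fall t₁ s) t ≤ B ∧
      (t₀ / 2 < t → deriv (fun s => rise t₀ s * fall t₁ s) t ≤ 0)) :
    (∫ y in S, gam γ a₀ t x y) * adj w (psi t₀ t₁) t x ≤ Phi t x * (B * |a₀ - y₀'|) := by
  have hP := Phi_pos ht.2 x
  rcases le_or_gt 2 (‖x‖ ^ 2) with h1 | h1
  · have : ∫ y in S, gam γ a₀ t x y = 0 := by simp [gam, ek_eq_zero ht.1.le h1]
    rw [this, zero_mul]
    positivity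
  · have a2 := adj_psi_le (t₀ := t₀) (t₁ := t₁) w ht.2 (x := x) (by linarith) hn
    have a3 := (integral_gam_le (a₀ := a₀) ht.1.le ht.2 h hS h0).1
    refine (mul_le_mul_of_nonneg_left a2 a3).trans ?_
    rcases lt_or_ge (t₀ / 2) t with h' | h'
    · exact (mul_nonpos_of_nonneg_of_nonpos a3 (mul_nonpos_of_nonpos_of_nonneg
        (hB'.2 h') hP.le)).trans (by positivity)
    · have a4 := (integral_gam_le (a₀ := a₀) ht.1.le ht.2 h hS (h0' h')).2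
      calc _ ≤ (∫ y in S, gam γ a₀ t x y) * (B * Phi t x) := by
            gcongr
            exact hB'.1
        _ ≤ |a₀ - y₀'| * (B * Phi t x) := by gcongr
        _ = _ := by ring

/-- the last conclusion of `CoreStmt` -/
def CoreAt (w : ℝ → E3 → ℝ) (I : Set ℝ) (A θ σ δ c C : ℝ) : Prop :=
  ∀ (J : Set ℝ) (γ : ℝ → E3 → ℝ → ℝ) (ψ : ℝ → E3 → ℝ) (q : ℝ × E3 → ℝ) (y₀ y₁ : ℝ),
    IsOpen J → J ⊆ I →
    ContDiffOn ℝ 2 (fun p : ℝ × E3 × ℝ => γ p.1 p.2.1 p.2.2) (J ×ˢ univ) →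
    (∀ t ∈ J, ∀ x y, 0 ≤ γ t x y) → (∀ t ∈ J, ∀ x y, y₁ ≤ y → γ t x y = 0) →
    ContDiff ℝ 2 (fun p : ℝ × E3 => ψ p.1 p.2) →
    HasCompactSupport (fun p : ℝ × E3 => ψ p.1 p.2) →
    tsupport (fun p : ℝ × E3 => ψ p.1 p.2) ⊆ J ×ˢ univ → (∀ t x, 0 ≤ ψ t x) →
    Measurable q → (∃ B, ∀ p, 0 ≤ q p ∧ q p ≤ B) →
    (∀ p ∈ tsupport (fun p : ℝ × E3 => ψ p.1 p.2), w p.1 p.2 = 0 →
      (∀ y ∈ Om w I A σ θ p.1 p.2, y₀ < y) ∧ ∀ y, y₀ ≤ y →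
        ((p.1, p.2, y) ∈ closure {p' : ℝ × E3 × ℝ | p'.1 ∈ J ∧ γ p'.1 p'.2.1 p'.2.2 ≠ 0} →
          Quiet w I δ p.1 p.2 y) ∧
        ‖gradient (fun x => γ p.1 x y) p.2‖ ^ 2 ≤ γ p.1 p.2 y * q p ∧
        deriv (γ p.1 p.2) y - c * γ p.1 p.2 y ≤ Real.exp (2 * y) * q p) →
    Integrable (fun p : ℝ × E3 => GG w I A σ θ γ p.1 p.2 * adj w ψ p.1 p.2) (stm w I) ∧
    Integrable (fun p : ℝ × E3 => ψ p.1 p.2 *
      ∫ y in Om w I A σ θ p.1 p.2, heat w (fun t x => γ t x y) p.1 p.2) (stm w I) ∧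
    0 ≤ ∫ p, (GG w I A σ θ γ p.1 p.2 * adj w ψ p.1 p.2 + ψ p.1 p.2 *
      ((∫ y in Om w I A σ θ p.1 p.2, heat w (fun t x => γ t x y) p.1 p.2) + C * q p))
        ∂(stm w I)

theorem step (hC : Calc) (hc : Cell) {a A θ σ c R t₀ t₁ B y₀ y₀' : ℝ} (ha : a ≤ -20)
    (hw : IsARFlow w (Ioo a 0) A) (hδ : 0 < δ) (hC₀ : 0 ≤ C₀) (hC₁ : 0 ≤ C₁) (ha₃ : a₀ ≤ -4)
    (he : Measurable e) (he0 : ∀ x, 0 ≤ e x ∧ e x ≤ C₁) (hγ : WtAt c Λ C₁ e)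
    (hineq : CoreAt w (Ioo a 0) A θ σ δ c C₀) {O : Set (ℝ × E3 × ℝ)}
    (hO : O = {p : ℝ × E3 × ℝ | p.1 ∈ Ioo a 0 ∧ p.2.2 ∈ Om w (Ioo a 0) A σ θ p.1 p.2.1})
    (hopen : IsOpen O) (h₀ : t₀ < 0) (h₁ : t₁ < 0) (hR : -t₀ * (2 * R ^ 2 + 8) < 1) (hB : 0 ≤ B)
    (hB' : ∀ t, deriv (fun s => rise t₀ s * fall t₁ s) t ≤ B ∧
      (t₀ / 2 < t → deriv (fun s => rise t₀ s * fall t₁ s) t ≤ 0))
    (hy₀ : ∀ p ∈ Icc t₀ (t₁ / 2) ×ˢ closedBall (0 : E3) 2, w p.1 p.2 = 0 →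
      ∀ y ∈ Om w (Ioo a 0) A σ θ p.1 p.2, y₀ < y)
    (hy₀' : ∀ p ∈ Icc t₀ (t₀ / 2) ×ˢ closedBall (0 : E3) 2, w p.1 p.2 = 0 →
      ∀ y ∈ Om w (Ioo a 0) A σ θ p.1 p.2, y₀' < y) :
    ∃ F : Finset P218UD.Lat, (∀ Q ∈ F, ‖zQ Q‖ < 3) ∧
      ∫⁻ p, ENNReal.ofReal ({p : ℝ × E3 | p.1 ∈ Ioo (t₀ / 2) t₁ ∧ p.2 ∈ NN O R a₀ p.1}.indicator
        (fun p => Real.exp (-R ^ 2 / 4) / 2048 * (1 / p.1 ^ 2)) p) ∂(stm w (Ioo a 0))
      ≤ ∫⁻ p, ENNReal.ofReal ((Icc t₀ (t₁ / 2) ×ˢ (univ : Set E3)).indicator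
        (fun p => Phi p.1 p.2 * (B * |a₀ - y₀'| + 36 * C₀) + Phi p.1 p.2 *
          ∑ Q ∈ act w (δ / 2) Λ a₀ F p.1 p.2,
            hQ w e (1 + 2 * C₀) (C₁ * (CXi / δ)) (20 * C₁) Q p.1 p.2) p) ∂(stm w (Ioo a 0)) := by
  have hk₂ : 0 ≤ C₁ * (CXi / δ) := mul_nonneg hC₁ (div_nonneg CXi_pos.le hδ.le)
  have h₀' : -1 / 4 < t₀ := by nlinarith [sq_nonneg R]
  have hJ : Icc t₀ (t₁ / 2) ⊆ Ioo (-1 / 4) 0 := fun t ht =>
    ⟨by linarith [ht.1], by linarith [ht.2]⟩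
  have hJI : Ioo (-1 / 4 : ℝ) 0 ⊆ Ioo a 0 := Ioo_subset_Ioo_left (by linarith)
  obtain ⟨F, hF'⟩ : ∃ F : Finset P218UD.Lat,
      ∀ Q, Q ∈ F ↔ y₀ ≤ Q.1 ∧ (Q.1 : ℝ) ≤ -2 ∧ zQ Q ∈ ball (0 : E3) 3 :=
    ⟨(finite_lat y₀ (-2) 0 3).toFinset, fun Q => Finite.mem_toFinset _⟩
  refine ⟨F, fun Q hQ' => mem_ball_zero_iff.1 ((hF' Q).1 hQ').2.2, ?_⟩
  have hr : ∀ Q : P218UD.Lat, (Q.1 : ℝ) ≤ -2 → rQ Q ≤ 1 := fun Q hQ' =>
    Real.exp_le_one_iff.2 (by linarith)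
  have hI : ∀ Q ∈ F, ∀ t ∈ Ioo (-1 / 4 : ℝ) 0, Icc (t - rQ Q ^ 2) t ⊆ Ioo a 0 :=
    fun Q hQ' t ht s hs => ⟨by
      linarith [hs.1, ht.1, pow_le_one₀ (n := 2) (rQ_pos Q).le (hr Q ((hF' Q).1 hQ').2.1)],
      hs.2.trans_lt ht.2⟩
  have hs : ∀ Q ∈ F, ∀ t ∈ Ioo (-1 / 4 : ℝ) 0, ContDiffAt ℝ ∞ (bbar w (zQ Q) (rQ Q)) t :=
    fun Q hQ' t ht => hc.smooth w _ A hw _ _ _ (rQ_pos Q) (hI Q hQ' t ht)
  obtain ⟨γ, hγc, hγ⟩ := hγ F (bQ w δ) (Ioo (-1 / 4) 0) isOpen_Ioo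
    (fun Q hQ' t ht => (contDiffAt_bQ (hs Q hQ' t ht)).contDiffWithinAt) fun Q _ t _ => bQ_mem
  have hγa : ∀ t ∈ Ioo (-1 / 4 : ℝ) 0, ∀ x y,
      ContDiffAt ℝ 2 (fun p : ℝ × E3 × ℝ => γ p.1 p.2.1 p.2.2) (t, x, y) := fun t ht x y =>
    hγc.contDiffAt ((isOpen_Ioo.prod isOpen_univ).mem_nhds ⟨ht, trivial⟩)
  obtain ⟨q, hq, hqB, hq'⟩ := exists_q (δ := δ / 2) (Λ := Λ) (a₀ := a₀) he he0 isOpen_Ioo hs
  have hE : ∀ (t : ℝ) (x : E3), 0 ≤ ∑ Q ∈ act w (δ / 2) Λ a₀ F t x,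
      e ((rQ Q)⁻¹ • (x - zQ Q)) / rQ Q ^ 2 := fun t x =>
    Finset.sum_nonneg fun Q _ => div_nonneg (he0 _).1 (sq_nonneg _)
  obtain ⟨i1, i2, i3⟩ := hineq (Ioo (-1 / 4) 0) (gam γ a₀) (psi t₀ t₁) q y₀ a₀ isOpen_Ioo hJI
    (fun p hp => (contDiffAt_gam hp.1.2 (hγa _ hp.1 _ _)).contDiffWithinAt)
    (fun t ht x y => gam_nonneg ((hγ t ht x).1 y).1)
    (fun t ht x y hy => gam_eq_zero ((lev_le a₀ (by linarith [ht.1]) ht.2).trans hy))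
    (contDiff_psi h₁) (hasCompactSupport_psi h₀ h₁)
    ((tsupport_psi h₀ h₁).trans fun p hp => ⟨hJ hp.1, trivial⟩) (psi_nonneg h₁) hq hqB
    fun p hp hp0 => by
      have hpK := tsupport_psi h₀ h₁ hp
      have ht := hJ hpK.1
      obtain ⟨g1, -, -, g4⟩ := hγ _ ht p.2
      have g5 := (g4 (lev a₀ p.1) _ act_subset (mem_act hδ)).1
      refine ⟨hy₀ p hpK hp0, fun y hy => ⟨fun h => ?_, ?_, ?_⟩⟩
      · obtain ⟨c1, c2⟩ := closure_gam h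
        refine quiet_of_closure (γ₀ := γ) (F := F) hδ (fun t ht x => (hγ t ht x).2.1)
          (fun t _ x y h => by rw [gam, h, zero_mul]) (fun Q q1 q2 q3 => ?_) h
        have q4 : (Q.1 : ℝ) ≤ -2 := by linarith
        have q5 : Q ∈ F := (hF' Q).2 ⟨by linarith, q4, mem_ball_zero_iff.2 (by
          have h5 := norm_sub_norm_le (zQ Q) p.2
          have h6 : ‖p.2‖ < 2 := lt_of_pow_lt_pow_left₀ 2 zero_le_two (by linarith)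
          rw [norm_sub_rev] at h5
          linarith [hr Q q4])⟩
        exact ⟨q5, hI Q q5 _ ht, (hs Q q5 _ ht).continuousAt⟩
      · rw [hq' p ht]
        exact gradient_gam_le ht.1.le (hγa _ ht _ _) (g1 y).1 (g1 y).2 (hE _ _)
          fun h => (g5 y h).1
      · rw [hq' p ht]
        exact deriv_gam_le ht.1.le (hγa _ ht _ _) (g1 y).1 (hE _ _) fun h => (g5 y h).2
  set N : Set (ℝ × E3) := {p | p.1 ∈ Ioo (t₀ / 2) t₁ ∧ p.2 ∈ NN O R a₀ p.1} with hN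
  have hL0 : ∀ t < 0, ∀ x, 0 ≤ ∑ Q ∈ act w (δ / 2) Λ a₀ F t x,
      hQ w e (1 + 2 * C₀) (C₁ * (CXi / δ)) (20 * C₁) Q t x := fun t ht x =>
    Finset.sum_nonneg fun Q _ =>
      hQ_nonneg ht (fun x => (he0 x).1) (by positivity) hk₂ (by positivity) Q
  refine lint_le_of_int ((i1.add (i2.add (integrable_psi_q hC hw.toIsFlow h₀ h₁ (hJ.trans hJI) hC₀
    hq hqB))).congr (Eventually.of_forall fun p => by simp only [Pi.add_apply, mul_add])) i3 ?_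
  filter_upwards [hC.stm_ae w _ hw.toIsFlow] with p hp
  have hg : p ∈ N → p.1 ∈ Icc (t₀ / 2) t₁ ∧ ‖p.2‖ ^ 2 ≤ 1 / 2 ∧ Real.exp (-R ^ 2 / 4) / 2048 *
      (1 / p.1 ^ 2) ≤ Phi p.1 p.2 * (ek p.1 p.2 / (2 * -p.1)) := fun h =>
    ⟨Ioo_subset_Icc_self h.1, gain_le hp.1.2 (by nlinarith [h.1.1, sq_nonneg R]) h.2.1⟩
  refine (fun hl0 => ⟨indicator_nonneg (fun p _ => by positivity) p, hl0, ?_⟩)
    (indicator_nonneg (fun p hp => add_nonneg (mul_nonneg (Phi_pos (hJ hp.1).2 _).le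
      (by positivity)) (mul_nonneg (Phi_pos (hJ hp.1).2 _).le (hL0 _ (hJ hp.1).2 _))) p)
  by_cases hpK : p ∈ Icc t₀ (t₁ / 2) ×ˢ closedBall (0 : E3) 2
  swap
  · rw [adj_psi_zero w h₀ h₁ hpK, psi_eq_zero h₀ h₁ hpK, indicator_of_notMem]
    · linarith
    · intro h
      obtain ⟨g1, g2, -⟩ := hg h
      exact hpK ⟨⟨by linarith [g1.1], by linarith [g1.2]⟩, mem_closedBall_zero_iff.2
        (le_of_lt (lt_of_pow_lt_pow_left₀ 2 zero_le_two (by linarith)))⟩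
  have ht := hJ hpK.1
  have hn := ((hC.slice w _ hw.toIsFlow _ hp.1).eik _ hp.2).self_of_nhds
  have hOm : MeasurableSet (Om w (Ioo a 0) A σ θ p.1 p.2) := by
    have h1 : Continuous fun y : ℝ => (p.1, p.2, y) := by fun_prop
    convert (hopen.preimage h1).measurableSet using 1
    rw [hO]
    exact Set.ext fun y => ⟨fun h => ⟨hp.1, h⟩, fun h => h.2⟩
  obtain ⟨g1, -, g3, g4⟩ := hγ _ ht p.2
  obtain ⟨-, g5, g6⟩ := g4 (lev a₀ p.1) _ act_subset (mem_act hδ)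
  obtain ⟨b1, b2⟩ := pw_bracket (C₀ := C₀) hδ ht.1.le ht.2 hn (fun x => (he0 x).1) hC₁
    (fun Q hQ' => hs Q hQ' _ ht) (hγa _ ht _) (fun y => (g1 y).1) g3 (g5 _ hn) g6 hOm
    (hy₀ p hpK hp.2) (fun y hy y' h => Om_up hy h) rfl rfl
  rw [← hq' p ht] at b1 b2
  have a1 : GG w (Ioo a 0) A σ θ (gam γ a₀) p.1 p.2 * adj w (psi t₀ t₁) p.1 p.2 ≤ _ :=
    gg_adj_le ht hn g1 hOm (hy₀ p hpK hp.2)
      (fun h' => hy₀' p ⟨⟨hpK.1.1, h'⟩, hpK.2⟩ hp.2) hB (hB' _)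
  rw [indicator_of_mem (show p ∈ Icc t₀ (t₁ / 2) ×ˢ (univ : Set E3) from ⟨hpK.1, trivial⟩)]
  by_cases hpN : p ∈ N
  · obtain ⟨n1, n2, n3⟩ := hg hpN
    have n4 := hpN.2.2
    rw [hO] at n4
    rw [indicator_of_mem hpN, psi_eq h₀ h₁ n1 (by linarith)]
    linarith [mul_le_mul_of_nonneg_left (b2 n4.2) (Phi_pos ht.2 p.2).le]
  · rw [indicator_of_notMem hpN]
    linarith [mul_le_mul_of_nonneg_left b1 (psi_nonneg (t₀ := t₀) h₁ p.1 p.2),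
      mul_le_mul_of_nonneg_right (psi_le (t₀ := t₀) (t₁ := t₁) ht.2 p.2)
        (add_nonneg (by positivity : 0 ≤ 36 * C₀) (hL0 _ ht.2 p.2))]

theorem m1a (hC : Calc) (hM : Mono) (hT : Tan) (hO : CoreStmt) (hW : WeightStmtR) (hc : Cell) :
    M1a := by
  intro w a A C ha hw
  have hA : 0 ≤ A := zero_le_one.trans hw.one_le
  obtain ⟨θ, σ, δ, c, C₀, -, hθ, -, -, hδ, hc0, -, hC₀, hcore⟩ := hO A hw.one_le
  obtain ⟨hopen, hlow, hineq⟩ := hcore w _ hw.toIsARFlow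
  refine ⟨θ, _, hθ, hopen, fun t ht x y h => ⟨ht, Or.inl h⟩, fun R ε b hε => ?_⟩
  set O := {p : ℝ × E3 × ℝ | p.1 ∈ Ioo a 0 ∧ p.2.2 ∈ Om w (Ioo a 0) A σ θ p.1 p.2.1} with hO'
  set cR := Real.exp (-R ^ 2 / 4) / 2048 with hcR
  have hcR0 : 0 < cR := by positivity
  obtain ⟨ε', hε', hL⟩ := total_loss (δ := δ / 2) (k₁ := 1 + 2 * C₀) (ε := cR * ε) hC hc hT ha hw
    (half_pos hδ) (by positivity) (by positivity)
  obtain ⟨Λ, C₁, e, hΛ, hC₁, he, he0, -, he1, hγ⟩ := hW c ε' hc0 hε'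
  have hk₂ : 0 ≤ C₁ * (CXi / δ) := mul_nonneg hC₁ (div_nonneg CXi_pos.le hδ.le)
  obtain ⟨b', hb'⟩ := hL e Λ (C₁ * (CXi / δ)) (20 * C₁) he (fun x => (he0 x).1) hΛ hk₂
    (by positivity) he1
  obtain ⟨CT, hCT0, hCT⟩ := lint_Phi hM
  obtain ⟨a₀, ha₁, ha₂, ha₃⟩ : ∃ a₀, a₀ ≤ b ∧ a₀ ≤ b' ∧ a₀ ≤ -4 :=
    ⟨min b (min b' (-4)), min_le_left _ _, (min_le_right _ _).trans (min_le_left _ _),
      (min_le_right _ _).trans (min_le_right _ _)⟩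
  refine ⟨a₀, ha₁, ?_⟩
  filter_upwards [hb' a₀ ha₂, Ioo_mem_nhdsLT (show -(1 / (2 * R ^ 2 + 8)) < (0 : ℝ) by
    rw [neg_lt_zero]; positivity)] with t₀ hL ht₀
  have h₀ : t₀ < 0 := ht₀.2
  have hR : -t₀ * (2 * R ^ 2 + 8) < 1 := (lt_div_iff₀ (by positivity)).1 (by linarith [ht₀.1])
  have h₀' : -1 / 4 < t₀ := by nlinarith [sq_nonneg R]
  obtain ⟨B, hB, hB'⟩ := deriv_chi_le h₀
  obtain ⟨y₀', hy₀'⟩ := hlow (Icc t₀ (t₀ / 2) ×ˢ closedBall 0 2)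
    (isCompact_Icc.prod (isCompact_closedBall _ _))
    fun p hp => ⟨⟨by linarith [hp.1.1], by linarith [hp.1.2]⟩, trivial⟩
  set K := B * |a₀ - y₀'| + 36 * C₀ with hK
  have hK0 : 0 ≤ K := by positivity
  refine ⟨K * (CT * A) / cR + ε, fun m => ?_⟩
  set t₁ := t₀ / 2 ^ m with ht₁
  have h₁ : t₁ < 0 := div_neg_of_neg_of_pos h₀ (by positivity)
  have hI : Icc t₀ (t₁ / 2) ⊆ Ioo a 0 := fun t ht => ⟨by linarith [ht.1], by linarith [ht.2]⟩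
  obtain ⟨y₀, hy₀⟩ := hlow (Icc t₀ (t₁ / 2) ×ˢ closedBall 0 2)
    (isCompact_Icc.prod (isCompact_closedBall _ _)) fun p hp => ⟨hI hp.1, trivial⟩
  obtain ⟨F, hF, main⟩ := step hC hc ha hw.toIsARFlow hδ hC₀ hC₁ ha₃ he he0 hγ hineq hO' hopen
    h₀ h₁ hR hB.le (hB' t₁ h₁) hy₀ hy₀'
  have hL' := hL F hF m
  rw [pow_succ, ← div_div, ← ht₁] at hL'
  have hNm := measurableSet_NN hopen R a₀
  have hNm' : MeasurableSet {p : ℝ × E3 | p.1 ∈ Ioo (t₀ / 2) t₁ ∧ p.2 ∈ NN O R a₀ p.1} :=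
    (measurable_fst measurableSet_Ioo).inter hNm
  have hNt : ∀ t, MeasurableSet (NN O R a₀ t) := fun t => measurable_prodMk_left hNm
  have k1 := le_trans (a := ENNReal.ofReal cR * ∫⁻ t in Ioo (t₀ / 2) t₁,
      ar (w t) (NN O R a₀ t) * ENNReal.ofReal (1 / t ^ 2)) (by
    rw [hC.stm_lint w _ hw.toIsFlow _ (Measurable.indicator (by fun_prop) hNm').ennreal_ofReal,
      ← lintegral_const_mul' _ _ ENNReal.ofReal_ne_top]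
    refine le_trans (setLIntegral_mono' measurableSet_Ioo fun t ht => le_of_eq ?_)
      (lintegral_mono_set (Ioo_subset_Ioo (by linarith) h₁.le))
    rw [mul_left_comm, ← ENNReal.ofReal_mul hcR0.le, mul_comm,
      ← lintegral_indicator_const (hNt t)]
    refine lintegral_congr fun x => ?_
    by_cases hx : x ∈ NN O R a₀ t
    · rw [indicator_of_mem hx, indicator_of_mem (by exact ⟨ht, hx⟩)]
    · rw [indicator_of_notMem hx, indicator_of_notMem (fun h => hx h.2), ENNReal.ofReal_zero]) main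
  have k2 := (k1.trans (lint_stm_le _)).trans (c := ∫⁻ t in Icc t₀ (t₁ / 2),
      (ENNReal.ofReal (K * (CT * A)) + ∫⁻ x, ENNReal.ofReal (Phi t x *
        ∑ Q ∈ act w (δ / 2) Λ a₀ F t x,
          hQ w e (1 + 2 * C₀) (C₁ * (CXi / δ)) (20 * C₁) Q t x) ∂(ar (w t)))) (by
    rw [← lintegral_indicator measurableSet_Icc]
    refine (setLIntegral_le_lintegral _ _).trans (lintegral_mono fun t => ?_)
    by_cases ht : t ∈ Icc t₀ (t₁ / 2)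
    · have hm : Measurable fun x => ENNReal.ofReal (Phi t x) := by
        unfold Phi
        fun_prop
      rw [indicator_of_mem ht]
      refine (lintegral_mono fun x => ?_).trans ((lintegral_add_left
        (hm.const_mul (ENNReal.ofReal K)) _).trans_le (add_le_add ?_ le_rfl))
      · rw [indicator_of_mem (by exact ⟨ht, trivial⟩), ← ENNReal.ofReal_mul hK0,
          mul_comm K]
        exact ENNReal.ofReal_add_le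
      · rw [lintegral_const_mul _ hm, ENNReal.ofReal_mul hK0]
        exact mul_le_mul_right (hCT _ A hA (hw.ratio t (hI ht)) t (hI ht).2) _
    · rw [indicator_of_notMem ht]
      refine le_of_eq (lintegral_eq_zero_of_ae_eq_zero (Eventually.of_forall fun x => ?_))
      simp only [Pi.zero_apply]
      rw [indicator_of_notMem (fun h => ht h.1), ENNReal.ofReal_zero])
  rw [lintegral_add_left measurable_const, setLIntegral_const, Real.volume_Icc] at k2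
  have k3 := k2.trans (add_le_add (mul_le_mul_right
    (ENNReal.ofReal_le_one.2 (by linarith : t₁ / 2 - t₀ ≤ 1)) _) hL')
  refine (ENNReal.mul_le_mul_iff_right (ENNReal.ofReal_pos.2 hcR0).ne' ENNReal.ofReal_ne_top).1
    (k3.trans (le_of_eq ?_))
  rw [mul_one, ← ENNReal.ofReal_natCast, ← ENNReal.ofReal_mul (by positivity),
    ← ENNReal.ofReal_add (by positivity) (by positivity), ← ENNReal.ofReal_mul hcR0.le]
  congr 1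
  push_cast
  field_simp
  ring

end Vale.Agent.P218UM
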