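import Vale.Agent.P218UM.Heat

/-! The backward heat kernel, the cutoff function of Ecker, and the cutoff in the level. -/

open MeasureTheory Set Filter Topology Metric
open scoped ENNReal NNReal RealInnerProductSpace ContDiff

namespace Vale.Agent.P218UM

open Vale.Agent.P218UA
open Vale.Agent.P218.H63 (lap hessSq)

/-- the backward heat kernel with pole at the space-time origin -/
noncomputable def Phi (t : ℝ) (x : E3) : ℝ :=
  Real.exp (-‖x‖ ^ 2 / (4 * -t)) / (4 * Real.pi * -t)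

lemma Phi_pos {t : ℝ} (ht : t < 0) (x : E3) : 0 < Phi t x := by
  have : 0 < -t := by linarith
  unfold Phi
  positivity

lemma contDiffAt_Phi {t : ℝ} (ht : t < 0) (x : E3) :
    ContDiffAt ℝ 2 (fun p : ℝ × E3 => Phi p.1 p.2) (t, x) := by
  have h0 : -t ≠ 0 := by linarith
  have h1 : ContDiffAt ℝ 2 (fun p : ℝ × E3 => ‖p.2‖ ^ 2) (t, x) :=
    (contDiff_norm_sq ℝ).contDiffAt.comp (t, x) contDiffAt_snd
  unfold Phi
  refine ContDiffAt.div (Real.contDiff_exp.contDiffAt.comp _ (h1.neg.div (by fun_prop) ?_))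
    (by fun_prop) ?_
  · exact mul_ne_zero (by norm_num) h0
  · exact mul_ne_zero (by positivity) h0

lemma adj_Phi (w : ℝ → E3 → ℝ) {t : ℝ} (ht : t < 0) {x : E3} (hn : ‖gradient (w t) x‖ = 1) :
    adj w Phi t x = -(lap (w t) x - ⟪x, gradient (w t) x⟫ / (2 * -t)) ^ 2 * Phi t x := by
  have h0 : -t ≠ 0 := by linarith
  have h0' : t ≠ 0 := ht.ne
  have hpi := Real.pi_pos.ne'
  set F : ℝ → ℝ := fun s => Real.exp (-s / (4 * -t)) / (4 * Real.pi * -t) with hF
  have hF1 : ∀ s, HasDerivAt F (-1 / (4 * -t) * F s) s := fun s => by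
    have h := (((hasDerivAt_id s).neg.div_const (4 * -t)).exp).div_const (4 * Real.pi * -t)
    refine h.congr_deriv ?_
    simp only [hF, id, Pi.neg_apply]
    ring
  have hF1' : deriv F = fun s => -1 / (4 * -t) * F s := funext fun s => (hF1 s).deriv
  have hF2 : ∀ s, deriv (deriv F) s = -1 / (4 * -t) * (-1 / (4 * -t) * F s) := fun s => by
    rw [hF1']
    exact ((hF1 s).const_mul _).deriv
  have hFc : ∀ s, ContDiffAt ℝ 2 F s := fun s => by
    simp only [hF]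
    fun_prop
  have hu : ContDiffAt ℝ 2 (fun y : E3 => ‖y‖ ^ 2) x := (contDiff_norm_sq ℝ).contDiffAt
  have e : Phi t = fun y => F (‖y‖ ^ 2) := rfl
  have h1 : HasDerivAt (fun s => Phi s x) ((1 / -t - ‖x‖ ^ 2 / (4 * t ^ 2)) * Phi t x) t := by
    have h2 : HasDerivAt (fun s : ℝ => 4 * -s) (4 * -1) t := (hasDerivAt_id t).neg.const_mul 4
    have h3 : HasDerivAt (fun s : ℝ => 4 * Real.pi * -s) (4 * Real.pi * -1) t :=
      (hasDerivAt_id t).neg.const_mul _
    have h := (((hasDerivAt_const t (-‖x‖ ^ 2)).div h2 (by positivity)).exp).div h3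
      (mul_ne_zero (by positivity) h0)
    refine h.congr_deriv ?_
    simp only [Phi, Pi.div_apply]
    field_simp
    ring
  have h4 : F (‖x‖ ^ 2) = Phi t x := rfl
  rw [adj, h1.deriv, e, trT_comp (hFc _) hu,
    gradient_comp (hF1 _).differentiableAt (hu.differentiableAt (by norm_num)), trT_norm_sq hn,
    gradient_norm_sq, hF2, hF1']
  simp only [h4, real_inner_smul_left, norm_smul, Real.norm_ofNat]
  field_simp
  ring

lemma adj_time_mul (w : ℝ → E3 → ℝ) {χ : ℝ → ℝ} {f : ℝ → E3 → ℝ} {t : ℝ} {x : E3}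
    (hχ : DifferentiableAt ℝ χ t) (hf : ContDiffAt ℝ 2 (fun p : ℝ × E3 => f p.1 p.2) (t, x)) :
    adj w (fun s y => χ s * f s y) t x = deriv χ t * f t x + χ t * adj w f t x := by
  have h1 := slice_x hf
  have h2 := (slice_t hf).differentiableAt (by norm_num)
  simp only [adj]
  rw [deriv_fun_mul hχ h2, trT_const_mul _ h1,
    gradient_const_mul _ (h1.differentiableAt (by norm_num)), real_inner_smul_left]
  ring

/-- the cutoff function of Ecker -/
noncomputable def ek (t : ℝ) (x : E3) : ℝ := max ((1 - ‖x‖ ^ 2 - 4 * t) / 2) 0 ^ 3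

lemma contDiff_ek : ContDiff ℝ 2 fun p : ℝ × E3 => ek p.1 p.2 := by
  have h1 : ContDiff ℝ 2 (fun p : ℝ × E3 => ‖p.2‖ ^ 2) := (contDiff_norm_sq ℝ).comp contDiff_snd
  exact contDiff_max_cube.comp (((contDiff_const.sub h1).sub (by fun_prop)).div_const 2)

lemma ek_nonneg (t : ℝ) (x : E3) : 0 ≤ ek t x := by
  unfold ek
  positivity

lemma ek_aux {t : ℝ} (ht : -1 / 4 ≤ t) (x : E3) : max ((1 - ‖x‖ ^ 2 - 4 * t) / 2) 0 ≤ 1 :=
  max_le (by nlinarith [sq_nonneg ‖x‖]) zero_le_one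

lemma ek_le_one {t : ℝ} (ht : -1 / 4 ≤ t) (x : E3) : ek t x ≤ 1 :=
  pow_le_one₀ (le_max_right _ _) (ek_aux ht x)

lemma ek_eq_zero {t : ℝ} (ht : -1 / 4 ≤ t) {x : E3} (hx : 2 ≤ ‖x‖ ^ 2) : ek t x = 0 := by
  rw [ek, max_eq_right (by linarith)]
  simp

lemma ek_ge {t : ℝ} (ht : t ≤ 0) {x : E3} (hx : ‖x‖ ^ 2 ≤ 1 / 2) : 1 / 64 ≤ ek t x := by
  have h : (1 / 4 : ℝ) ≤ max ((1 - ‖x‖ ^ 2 - 4 * t) / 2) 0 := le_max_of_le_left (by linarith)
  have := pow_le_pow_left₀ (by norm_num) h 3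
  norm_num at this ⊢
  exact this

lemma deriv_cube : deriv (fun s : ℝ => max s 0 ^ 3) = fun s => 3 * max s 0 ^ 2 := by
  ext s
  have := (hasDerivAt_max_pow 1 s).deriv
  norm_num at this ⊢
  exact this

lemma deriv2_cube (s : ℝ) : deriv (deriv fun s : ℝ => max s 0 ^ 3) s = 6 * max s 0 := by
  rw [deriv_cube]
  have := ((hasDerivAt_max_pow 0 s).const_mul 3).deriv
  norm_num at this ⊢
  rw [this]
  ring

lemma ek_inner (t : ℝ) : (fun y : E3 => (1 - ‖y‖ ^ 2 - 4 * t) / 2)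
    = fun y => -(1 / 2) * ‖y‖ ^ 2 + (1 - 4 * t) / 2 := by
  ext y
  ring

lemma gradient_ek_inner (t : ℝ) (x : E3) :
    gradient (fun y : E3 => (1 - ‖y‖ ^ 2 - 4 * t) / 2) x = -x := by
  have hu : DifferentiableAt ℝ (fun y : E3 => ‖y‖ ^ 2) x :=
    (contDiff_norm_sq ℝ (n := 1)).differentiable (by norm_num) x
  have h := gradient_const_mul (-(1 / 2)) hu
  rw [gradient_norm_sq, smul_smul] at h
  rw [ek_inner, gradient, fderiv_add_const, ← gradient, h]
  norm_num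

lemma contDiff_ek_inner (t : ℝ) : ContDiff ℝ 2 fun y : E3 => (1 - ‖y‖ ^ 2 - 4 * t) / 2 :=
  ((contDiff_const.sub (contDiff_norm_sq ℝ)).sub contDiff_const).div_const 2

lemma gradient_ek (t : ℝ) (x : E3) :
    gradient (ek t) x = (3 * max ((1 - ‖x‖ ^ 2 - 4 * t) / 2) 0 ^ 2) • -x := by
  have h := gradient_comp (F := fun s : ℝ => max s 0 ^ 3)
    (u := fun y : E3 => (1 - ‖y‖ ^ 2 - 4 * t) / 2) (x := x)
    (hasDerivAt_max_pow 1 _).differentiableAt
    ((contDiff_ek_inner t).differentiable (by norm_num) x)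
  rw [deriv_cube, gradient_ek_inner] at h
  exact h

lemma norm_gradient_ek_sq {t : ℝ} (ht : -1 / 4 ≤ t) (x : E3) :
    ‖gradient (ek t) x‖ ^ 2 ≤ 18 * ek t x := by
  rw [gradient_ek, norm_smul, norm_neg, Real.norm_eq_abs, abs_of_nonneg (by positivity), ek]
  have h1 := ek_aux ht x
  set m := max ((1 - ‖x‖ ^ 2 - 4 * t) / 2) 0 with hm
  have h0 : 0 ≤ m := le_max_right _ _
  rcases le_total (‖x‖ ^ 2) 2 with h | h
  · have h2 : m * ‖x‖ ^ 2 ≤ 2 := by nlinarith [sq_nonneg ‖x‖]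
    have h3 : 0 ≤ m ^ 3 := by positivity
    nlinarith
  · have : m = 0 := max_eq_right (by linarith)
    rw [this]
    norm_num

lemma norm_gradient_ek_le {t : ℝ} (ht : -1 / 4 ≤ t) (x : E3) : ‖gradient (ek t) x‖ ≤ 5 := by
  have h1 := norm_gradient_ek_sq ht x
  have h2 := ek_le_one ht x
  exact (abs_le_of_sq_le_sq' (by nlinarith) (by norm_num)).2

lemma heat_ek (w : ℝ → E3 → ℝ) (t : ℝ) {x : E3} (hn : ‖gradient (w t) x‖ = 1) :
    heat w ek t x ≤ 0 := by
  have h1 : HasDerivAt (fun s => ek s x) (3 * max ((1 - ‖x‖ ^ 2 - 4 * t) / 2) 0 ^ 2 * -2) t := by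
    have h2 : HasDerivAt (fun s : ℝ => (1 - ‖x‖ ^ 2 - 4 * s) / 2) (-2) t := by
      refine ((((hasDerivAt_id t).const_mul 4).const_sub (1 - ‖x‖ ^ 2)).div_const 2).congr_deriv ?_
      norm_num
    have := (hasDerivAt_max_pow 1 _).comp t h2
    norm_num at this ⊢
    exact this
  have h2 := trT_comp (F := fun s : ℝ => max s 0 ^ 3)
    (u := fun y : E3 => (1 - ‖y‖ ^ 2 - 4 * t) / 2) (x := x) contDiff_max_cube.contDiffAt
    (contDiff_ek_inner t).contDiffAt (gradient (w t) x)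
  have h3 : trT (gradient (w t) x) (hs (fun y : E3 => (1 - ‖y‖ ^ 2 - 4 * t) / 2) x) = -2 := by
    have h4 := trT_const_mul (-(1 / 2)) (f := fun y : E3 => ‖y‖ ^ 2) (x := x)
      (contDiff_norm_sq ℝ).contDiffAt (gradient (w t) x)
    rw [trT_norm_sq hn] at h4
    have h5 : gradient (fun y : E3 => (1 - ‖y‖ ^ 2 - 4 * t) / 2)
        = gradient fun y : E3 => -(1 / 2) * ‖y‖ ^ 2 := by
      ext1 y
      rw [ek_inner, gradient, fderiv_add_const, ← gradient]
    rw [hs, h5, ← hs, h4]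
    norm_num
  rw [deriv2_cube, deriv_cube, h3, gradient_ek_inner] at h2
  have h6 : ek t = fun y : E3 => max ((1 - ‖y‖ ^ 2 - 4 * t) / 2) 0 ^ 3 := rfl
  rw [heat, h1.deriv, h6, h2]
  have h7 := inner_sq_le hn (-x)
  have h8 : 0 ≤ max ((1 - ‖x‖ ^ 2 - 4 * t) / 2) 0 := le_max_right _ _
  nlinarith [mul_nonneg h8 (sub_nonneg.2 h7)]

/-- the cutoff in the level -/
noncomputable def s0 (u : ℝ) : ℝ := Real.smoothTransition (-u)

lemma contDiff_s0 : ContDiff ℝ 2 s0 := Real.smoothTransition.contDiff.comp contDiff_neg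

lemma s0_nonneg (u : ℝ) : 0 ≤ s0 u := Real.smoothTransition.nonneg _

lemma s0_le_one (u : ℝ) : s0 u ≤ 1 := Real.smoothTransition.le_one _

lemma s0_eq_zero {u : ℝ} (h : 0 ≤ u) : s0 u = 0 :=
  Real.smoothTransition.zero_of_nonpos (by linarith)

lemma s0_eq_one {u : ℝ} (h : u ≤ -1) : s0 u = 1 :=
  Real.smoothTransition.one_of_one_le (by linarith)

lemma antitone_s0 : Antitone s0 := fun _ _ h =>
  Real.smoothTransition.monotone (neg_le_neg h)

lemma deriv_s0_nonpos (u : ℝ) : deriv s0 u ≤ 0 := antitone_s0.deriv_nonpos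

/-- the top level -/
noncomputable def lev (a₀ t : ℝ) : ℝ := a₀ + Real.log (-t) / 2

lemma hasDerivAt_lev (a₀ : ℝ) {t : ℝ} (ht : t < 0) :
    HasDerivAt (lev a₀) (-(1 / (2 * -t))) t := by
  have h0 : -t ≠ 0 := by linarith
  have h := (((hasDerivAt_id t).neg.log h0).div_const 2).const_add a₀
  refine h.congr_deriv ?_
  simp only [Pi.neg_apply, id]
  field_simp

lemma contDiffAt_lev (a₀ : ℝ) {t : ℝ} (ht : t < 0) : ContDiffAt ℝ 2 (lev a₀) t := by
  have h0 : -t ≠ 0 := by linarith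
  exact contDiffAt_const.add ((contDiffAt_id.neg.log h0).div_const 2)

lemma exp_lev (a₀ : ℝ) {t : ℝ} (ht : t < 0) : Real.exp (lev a₀ t) = Real.exp a₀ * √(-t) := by
  rw [lev, Real.exp_add, Real.exp_half, Real.exp_log (by linarith)]

lemma lev_mono (a₀ : ℝ) {s t : ℝ} (hst : s ≤ t) (ht : t < 0) : lev a₀ t ≤ lev a₀ s := by
  have := Real.log_le_log (by linarith : 0 < -t) (by linarith : -t ≤ -s)
  unfold lev
  linarith

end Vale.Agent.P218UM
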