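import Vale.Agent.P218UM.PW
import Vale.Agent.P218UD.Lat
import Vale.Agent.P218UD.Lint

/-! The loud lattice balls in one parabolic window, with exponential weights. -/

open MeasureTheory Set Filter Topology Metric
open scoped ENNReal NNReal RealInnerProductSpace ContDiff

namespace Vale.Agent.P218UM

open Vale.Agent.P218UA Vale.Agent.P218UD
open Vale.Agent.P218.H63 (lap hessSq)

/-- the times in the window of size `ρ` at which `Q` is loud -/
def ld (w : ℝ → E3 → ℝ) (δ ρ : ℝ) (Q : P218UD.Lat) : Set ℝ :=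
  {t ∈ Icc (-ρ ^ 2) (-ρ ^ 2 / 2) | δ ≤ bbar w (zQ Q) (rQ Q) t}

lemma summable_shell : Summable fun n : ℕ => ((n : ℝ) + 1) ^ 2 * Real.exp (-n / 2) := by
  have h0 : ‖Real.exp (-1 / 2)‖ < 1 := by
    rw [Real.norm_eq_abs, abs_of_pos (Real.exp_pos _)]
    exact Real.exp_lt_one_iff.2 (by norm_num)
  have h1 : Summable fun n : ℕ => ((n + 1 : ℕ) : ℝ) ^ 2 * Real.exp (-1 / 2) ^ (n + 1) :=
    (summable_nat_add_iff (f := fun n : ℕ => (n : ℝ) ^ 2 * Real.exp (-1 / 2) ^ n) 1).2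
      (summable_pow_mul_geometric_of_norm_lt_one 2 h0)
  refine (h1.mul_left (Real.exp (1 / 2))).congr fun n => ?_
  rw [← Real.exp_nat_mul, mul_left_comm, ← Real.exp_add]
  push_cast
  congr 2
  ring

theorem win_count (hc : Cell) (A C : ℝ) {δ : ℝ} (hδ : 0 < δ) :
    ∃ r₀ > (0 : ℝ), ∃ N : ℝ, 0 ≤ N ∧ ∀ w a, a ≤ -20 → IsGood w (Ioo a 0) A C →
      ∀ ρ : ℝ, 0 < ρ → ρ ≤ 1 →
      ∀ F : Finset P218UD.Lat, (∀ Q ∈ F, ‖zQ Q‖ < 3 ∧ rQ Q ≤ r₀ * ρ) →
      ∑ Q ∈ F, ENNReal.ofReal (Real.exp (-‖zQ Q‖ / (2 * ρ)) / ρ ^ 2) * volume (ld w δ ρ Q)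
        ≤ ENNReal.ofReal N := by
  classical
  obtain ⟨r₀, hr₀, N, hN⟩ := hc.count A C δ hδ
  set s : ℕ → ℝ := fun n => ((n : ℝ) + 1) ^ 2 * Real.exp (-n / 2) with hs
  have hs0 : ∀ n, 0 ≤ s n := fun n => by positivity
  refine ⟨r₀, hr₀, N * ∑' n, s n, mul_nonneg N.coe_nonneg (tsum_nonneg hs0), ?_⟩
  intro w a ha hw ρ hρ hρ1 F hF
  set g : P218UD.Lat → ℕ := fun Q => ⌊‖zQ Q‖ / ρ⌋₊ with hg
  rw [← Finset.sum_fiberwise_of_maps_to (g := g) (t := F.image g)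
    fun Q hQ => Finset.mem_image_of_mem g hQ]
  have key : ∀ n ∈ F.image g, ∑ Q ∈ F with g Q = n,
      ENNReal.ofReal (Real.exp (-‖zQ Q‖ / (2 * ρ)) / ρ ^ 2) * volume (ld w δ ρ Q)
      ≤ ENNReal.ofReal (N * s n) := fun n hn => by
    have h1 : ∀ Q, g Q = n → n * ρ ≤ ‖zQ Q‖ ∧ ‖zQ Q‖ < (n + 1) * ρ := fun Q hQ => by
      have h2 := Nat.floor_le (a := ‖zQ Q‖ / ρ) (by positivity)
      have h3 := Nat.lt_floor_add_one (‖zQ Q‖ / ρ)
      change ((g Q : ℕ) : ℝ) ≤ _ at h2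
      change _ < ((g Q : ℕ) : ℝ) + 1 at h3
      rw [hQ] at h2 h3
      exact ⟨(le_div_iff₀ hρ).1 h2, (div_lt_iff₀ hρ).1 h3⟩
    obtain ⟨Q₀, hQ₀, hQ₀'⟩ := Finset.mem_image.1 hn
    have h2 : (n + 1) * ρ ≤ 4 := by nlinarith [(h1 Q₀ hQ₀').1, (hF Q₀ hQ₀).1]
    have h3 : ρ ≤ (n + 1) * ρ := by nlinarith [(Nat.cast_nonneg n : (0 : ℝ) ≤ n)]
    have h4 := hN w _ hw 0 ((n + 1) * ρ) (-ρ ^ 2) (-ρ ^ 2 / 2) (by positivity) (by nlinarith)
      (fun t ht => ⟨by nlinarith [ht.1], by nlinarith [ht.2]⟩) (F.filter fun Q => g Q = n)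
      fun Q hQ => by
        rw [Finset.mem_filter] at hQ
        exact ⟨mem_ball_zero_iff.2 (by nlinarith [(h1 Q hQ.2).2]),
          (hF Q hQ.1).2.trans (mul_le_mul_of_nonneg_left h3 hr₀.le)⟩
    calc _ ≤ ∑ Q ∈ F with g Q = n,
          ENNReal.ofReal (Real.exp (-n / 2) / ρ ^ 2) * volume (ld w δ ρ Q) := by
          refine Finset.sum_le_sum fun Q hQ => mul_le_mul_left (ENNReal.ofReal_le_ofReal ?_) _
          refine div_le_div_of_nonneg_right (Real.exp_le_exp.2 ?_) (by positivity)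
          rw [div_le_div_iff₀ (by positivity) (by positivity)]
          nlinarith [(h1 Q (Finset.mem_filter.1 hQ).2).1]
      _ ≤ ENNReal.ofReal (Real.exp (-n / 2) / ρ ^ 2) *
          (N * ENNReal.ofReal (((n + 1) * ρ) ^ 2)) := by
          rw [← Finset.mul_sum]
          exact mul_le_mul_right h4 _
      _ = _ := by
          rw [← ENNReal.ofReal_coe_nnreal, ← ENNReal.ofReal_mul N.coe_nonneg,
            ← ENNReal.ofReal_mul (by positivity)]
          congr 1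
          simp only [hs]
          field_simp
  refine (Finset.sum_le_sum key).trans ?_
  rw [← ENNReal.ofReal_sum_of_nonneg fun n _ => mul_nonneg N.coe_nonneg (hs0 n), ← Finset.mul_sum]
  exact ENNReal.ofReal_le_ofReal (mul_le_mul_of_nonneg_left
    (summable_shell.sum_le_tsum _ fun n _ => hs0 n) N.coe_nonneg)

/-- small dissipation gives the hypothesis of `Cell.small` -/
lemma dis_small (hC : Calc) {w : ℝ → E3 → ℝ} {I : Set ℝ} (hw : IsFlow w I) {R ρ : ℝ} (hR : 1 ≤ R)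
    (hρ : 0 < ρ) {t : ℝ} (hI : t ∈ I) (ht : t ∈ Icc (-ρ ^ 2 - (R * ρ) ^ 2) (-ρ ^ 2 / 2)) :
    ∫⁻ x in ball (0 : E3) (7 * (R * ρ)),
      ENNReal.ofReal (max (|lap (w t) x| - 7 * R ^ 2 / (R * ρ)) 0 ^ 2) ∂(ar (w t))
      ≤ ENNReal.ofReal (8 * Real.pi * R ^ 2 * Real.exp (25 * R ^ 2) * ρ ^ 2) * dis w 0 0 t := by
  have hs := hC.slice w I hw t hI
  have hcl : MeasurableSet {x | w t x = 0} :=
    (isClosed_eq hs.smooth.continuous continuous_const).measurableSet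
  rw [dis, ← lintegral_const_mul' _ _ ENNReal.ofReal_ne_top]
  refine le_trans (lintegral_mono_ae ?_) (lintegral_mono' Measure.restrict_le_self le_rfl)
  have h1 : ∀ᵐ x ∂(ar (w t)), w t x = 0 := ae_restrict_mem hcl
  filter_upwards [ae_restrict_mem measurableSet_ball, ae_restrict_of_ae h1] with x hx hx0
  rw [← ENNReal.ofReal_mul (by positivity)]
  refine ENNReal.ofReal_le_ofReal ?_
  rw [mem_ball_zero_iff] at hx
  have hn := (hs.eik x hx0).self_of_nhds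
  have ht0 : ρ ^ 2 / 2 ≤ -t := by linarith [ht.2]
  have hp : 0 < -t := by nlinarith
  have ht1 : -t ≤ 2 * R ^ 2 * ρ ^ 2 := by
    have : ρ ^ 2 ≤ (R * ρ) ^ 2 := pow_le_pow_left₀ hρ.le (by nlinarith) 2
    nlinarith [ht.1]
  simp only [sub_zero, zero_sub]
  set H := lap (w t) x
  set b := ⟪x, gradient (w t) x⟫ / (2 * -t)
  have h2 : |b| ≤ 7 * R ^ 2 / (R * ρ) := by
    have h3 := abs_real_inner_le_norm x (gradient (w t) x)
    rw [hn, mul_one] at h3
    rw [abs_div, abs_of_pos (by positivity : 0 < 2 * -t),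
      div_le_div_iff₀ (by positivity) (by positivity)]
    have h4 : |⟪x, gradient (w t) x⟫| * (R * ρ) ≤ 7 * (R * ρ) * (R * ρ) :=
      mul_le_mul_of_nonneg_right (by linarith) (by positivity)
    nlinarith [sq_nonneg R]
  have h3 : max (|H| - 7 * R ^ 2 / (R * ρ)) 0 ^ 2 ≤ (H - b) ^ 2 := by
    rw [← sq_abs (H - b)]
    refine pow_le_pow_left₀ (le_max_right _ _) (max_le ?_ (abs_nonneg _)) 2
    linarith [abs_sub_abs_le_abs_sub H b]
  have h4 : 1 ≤ Real.exp (25 * R ^ 2) * Real.exp (-‖x‖ ^ 2 / (4 * -t)) := by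
    rw [← Real.exp_add]
    refine Real.one_le_exp ?_
    have h5 : ‖x‖ ^ 2 ≤ (7 * (R * ρ)) ^ 2 := pow_le_pow_left₀ (norm_nonneg _) hx.le 2
    have h6 : ‖x‖ ^ 2 / (4 * -t) ≤ 25 * R ^ 2 := by
      rw [div_le_iff₀ (by positivity)]
      nlinarith [sq_nonneg R, sq_nonneg (R * ρ)]
    rw [neg_div]
    linarith
  have h5 : 1 ≤ 8 * Real.pi * R ^ 2 * ρ ^ 2 / (4 * Real.pi * -t) := by
    rw [one_le_div (by positivity)]
    nlinarith [Real.pi_pos]
  calc _ ≤ (H - b) ^ 2 * (1 * 1) := by linarith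
    _ ≤ (H - b) ^ 2 * ((Real.exp (25 * R ^ 2) * Real.exp (-‖x‖ ^ 2 / (4 * -t))) *
        (8 * Real.pi * R ^ 2 * ρ ^ 2 / (4 * Real.pi * -t))) := by gcongr
    _ = _ := by ring

theorem win_small (hC : Calc) (hc : Cell) (hT : Tan) {w : ℝ → E3 → ℝ} {a A C δ ε : ℝ}
    (ha : a ≤ -20) (hw : IsGood w (Ioo a 0) A C) (hδ : 0 < δ) (hε : 0 < ε) :
    ∃ r₀ > (0 : ℝ), ∃ ρ₀ > (0 : ℝ), ∀ ρ : ℝ, 0 < ρ → ρ ≤ ρ₀ →
      ∀ F : Finset P218UD.Lat, (∀ Q ∈ F, ‖zQ Q‖ < 3 ∧ rQ Q ≤ r₀ * ρ) →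
      ∑ Q ∈ F, ∫⁻ t in ld w δ ρ Q, ENNReal.ofReal (Real.exp (-‖zQ Q‖ / ρ) / ρ ^ 2 *
        (rQ Q ^ 2 * |deriv (bbar w (zQ Q) (rQ Q)) t|)) ≤ ENNReal.ofReal ε := by
  classical
  obtain ⟨r₁, hr₁, N, hN0, hN⟩ := win_count hc A C hδ
  obtain ⟨B, hB⟩ := hc.crude A
  obtain ⟨R, hR, hR2⟩ : ∃ R : ℝ, 1 ≤ R ∧ Real.exp (-R / 2) * |B| * N ≤ ε / 2 := by
    have h1 : Tendsto (fun R : ℝ => Real.exp (-R / 2) * |B| * N) atTop (𝓝 (0 * |B| * N)) :=
      ((Real.tendsto_exp_atBot.comp (tendsto_neg_atTop_atBot.atBot_div_const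
        two_pos)).mul_const _).mul_const _
    rw [zero_mul, zero_mul] at h1
    exact ((eventually_ge_atTop 1).and (h1.eventually (ge_mem_nhds (half_pos hε)))).exists
  obtain ⟨r₂, hr₂, ε', hε', hS⟩ := hc.small A C δ (7 * R ^ 2) (ε / 2 / R ^ 2) hδ (by positivity)
    (by positivity)
  set D := 8 * Real.pi * R ^ 2 * Real.exp (25 * R ^ 2) with hD
  have hD0 : 0 < D := by positivity
  obtain ⟨b, hb, hb'⟩ := (mem_nhdsLT_iff_exists_Ioo_subset).1
    ((hT.diss w a A (by linarith) hw.toIsARFlow).eventually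
      (gt_mem_nhds (ENNReal.ofReal_pos.2 (by positivity : 0 < ε' * R ^ 2 / D))))
  rw [mem_Iio] at hb
  refine ⟨min 1 (min r₁ r₂), by positivity, min 1 (min 1 (-b) / (4 * R ^ 2)), by
    have : 0 < -b := by linarith
    positivity, fun ρ hρ hρ₀ F hF => ?_⟩
  have hρ1 : ρ ≤ 1 := hρ₀.trans (min_le_left _ _)
  have hρ2 : 4 * R ^ 2 * ρ ^ 2 ≤ min 1 (-b) := by
    have h1 := (le_div_iff₀ (by positivity)).1 (hρ₀.trans (min_le_right _ _))
    nlinarith [mul_pos hρ (by positivity : 0 < 4 * R ^ 2)]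
  have hρ3 := hρ2.trans (min_le_left _ _)
  have hρ4 := hρ2.trans (min_le_right _ _)
  have hρ5 : ρ ^ 2 ≤ (R * ρ) ^ 2 := pow_le_pow_left₀ hρ.le (by nlinarith) 2
  have hρ6 : 0 < ρ ^ 2 := by positivity
  have hI : Icc (-ρ ^ 2 - (R * ρ) ^ 2) (-ρ ^ 2 / 2) ⊆ Ioo a 0 := fun t ht =>
    ⟨by nlinarith [ht.1], by nlinarith [ht.2]⟩
  rw [← Finset.sum_filter_add_sum_filter_not F fun Q => ‖zQ Q‖ < R * ρ,
    ← add_halves ε, ENNReal.ofReal_add (by positivity) (by positivity)]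
  refine add_le_add ?_ ?_
  · have h1 := hS w _ hw 0 (R * ρ) (-ρ ^ 2) (-ρ ^ 2 / 2) (by positivity) (by nlinarith) hI ?_
      (F.filter fun Q => ‖zQ Q‖ < R * ρ) fun Q hQ => by
        rw [Finset.mem_filter] at hQ
        refine ⟨mem_ball_zero_iff.2 (by nlinarith [hQ.2]), (hF Q hQ.1).2.trans ?_⟩
        exact mul_le_mul ((min_le_right _ _).trans (min_le_right _ _)) (by nlinarith) hρ.le hr₂.le
    · calc _ ≤ ∑ Q ∈ F with ‖zQ Q‖ < R * ρ, ENNReal.ofReal (1 / ρ ^ 2) * ∫⁻ t in ld w δ ρ Q,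
            ENNReal.ofReal (rQ Q ^ 2 * |deriv (bbar w (zQ Q) (rQ Q)) t|) := by
            refine Finset.sum_le_sum fun Q _ => ?_
            rw [← lintegral_const_mul' _ _ ENNReal.ofReal_ne_top]
            refine lintegral_mono fun t => ?_
            rw [← ENNReal.ofReal_mul (by positivity)]
            refine ENNReal.ofReal_le_ofReal (mul_le_mul_of_nonneg_right
              (div_le_div_of_nonneg_right (Real.exp_le_one_iff.2 ?_) hρ6.le) (by positivity))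
            exact div_nonpos_of_nonpos_of_nonneg (by simp) hρ.le
        _ ≤ ENNReal.ofReal (1 / ρ ^ 2) * ENNReal.ofReal (ε / 2 / R ^ 2 * (R * ρ) ^ 2) := by
            rw [← Finset.mul_sum]
            exact mul_le_mul_right h1 _
        _ = _ := by
            rw [← ENNReal.ofReal_mul (by positivity)]
            congr 1
            field_simp
    · have h2 : -3 * (R * ρ) ^ 2 ∈ Ioo b 0 := ⟨by nlinarith, by nlinarith⟩
      calc _ ≤ ∫⁻ t in Icc (-ρ ^ 2 - (R * ρ) ^ 2) (-ρ ^ 2 / 2),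
            ENNReal.ofReal (D * ρ ^ 2) * dis w 0 0 t :=
            setLIntegral_mono' measurableSet_Icc fun t ht =>
              dis_small hC hw.toIsFlow hR hρ (hI ht) ht
        _ ≤ ENNReal.ofReal (D * ρ ^ 2) * ∫⁻ t in Ioo (-3 * (R * ρ) ^ 2) 0, dis w 0 0 t := by
            rw [lintegral_const_mul' _ _ ENNReal.ofReal_ne_top]
            refine mul_le_mul_right (lintegral_mono_set ?_) _
            exact fun t ht => ⟨by nlinarith [ht.1], by nlinarith [ht.2]⟩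
        _ ≤ ENNReal.ofReal (D * ρ ^ 2) * ENNReal.ofReal (ε' * R ^ 2 / D) :=
            mul_le_mul_right (hb' h2).le _
        _ = _ := by
            rw [← ENNReal.ofReal_mul (by positivity)]
            congr 1
            field_simp
  · have h1 := hN w a ha hw ρ hρ hρ1 (F.filter fun Q => ¬‖zQ Q‖ < R * ρ) fun Q hQ => by
      rw [Finset.mem_filter] at hQ
      exact ⟨(hF Q hQ.1).1, (hF Q hQ.1).2.trans (mul_le_mul_of_nonneg_right
        ((min_le_right _ _).trans (min_le_left _ _)) hρ.le)⟩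
    calc _ ≤ ∑ Q ∈ F with ¬‖zQ Q‖ < R * ρ, ENNReal.ofReal (Real.exp (-R / 2) * |B|) *
          (ENNReal.ofReal (Real.exp (-‖zQ Q‖ / (2 * ρ)) / ρ ^ 2) * volume (ld w δ ρ Q)) := by
          refine Finset.sum_le_sum fun Q hQ => ?_
          rw [Finset.mem_filter, not_lt] at hQ
          have h2 : rQ Q ≤ ρ := (hF Q hQ.1).2.trans (by nlinarith [min_le_left 1 (min r₁ r₂)])
          have h3 : rQ Q ^ 2 ≤ ρ ^ 2 := pow_le_pow_left₀ (rQ_pos Q).le h2 2
          have hm : MeasurableSet (ld w δ ρ Q) := by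
            have h4 := measurableSet_loud (w := w) (δ := δ) (Q := Q) (J := Ioo (-2) 0) isOpen_Ioo
              fun t ht => hc.smooth w _ A hw.toIsARFlow _ _ _ (rQ_pos Q) fun s hs =>
                ⟨by nlinarith [hs.1, ht.1], by nlinarith [hs.2, ht.2]⟩
            have e : ld w δ ρ Q = loud w δ (Ioo (-2) 0) Q ∩ Icc (-ρ ^ 2) (-ρ ^ 2 / 2) :=
              Set.ext fun t => ⟨fun h => ⟨⟨⟨by nlinarith [h.1.1], by nlinarith [h.1.2]⟩, h.2⟩,
                h.1⟩, fun h => ⟨h.2, h.1.2⟩⟩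
            rw [e]
            exact h4.inter measurableSet_Icc
          rw [← mul_assoc, ← setLIntegral_const, ← ENNReal.ofReal_mul (by positivity)]
          refine setLIntegral_mono' hm fun t ht => ENNReal.ofReal_le_ofReal ?_
          have h4 := (hB w _ hw.toIsARFlow (zQ Q) _ t (rQ_pos Q) fun s hs =>
            ⟨by nlinarith [hs.1, ht.1.1], by nlinarith [hs.2, ht.1.2]⟩).trans (le_abs_self B)
          have h5 : Real.exp (-‖zQ Q‖ / ρ)
              ≤ Real.exp (-R / 2) * Real.exp (-‖zQ Q‖ / (2 * ρ)) := by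
            rw [← Real.exp_add]
            refine Real.exp_le_exp.2 ?_
            have h6 : R ≤ ‖zQ Q‖ / ρ := (le_div_iff₀ hρ).2 hQ.2
            have e : -‖zQ Q‖ / (2 * ρ) = -(‖zQ Q‖ / ρ) / 2 := by field_simp
            rw [e, neg_div]
            linarith
          calc _ ≤ Real.exp (-R / 2) * Real.exp (-‖zQ Q‖ / (2 * ρ)) / ρ ^ 2 * |B| := by gcongr
            _ = _ := by ring
      _ ≤ ENNReal.ofReal (Real.exp (-R / 2) * |B|) * ENNReal.ofReal N := by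
          rw [← Finset.mul_sum]
          exact mul_le_mul_right h1 _
      _ ≤ _ := by
          rw [← ENNReal.ofReal_mul (by positivity)]
          exact ENNReal.ofReal_le_ofReal hR2

end Vale.Agent.P218UM
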